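import Crest.Agent.R12.HK.Defs
import Crest.Agent.R17.D.Zero

/-! Row 12, block HK: arithmetic of the rows. -/

set_option autoImplicit false

namespace Crest.Agent.R12.HK

open Crest.Agent.R17 Complex MeasureTheory Filter Set
open scoped Real Topology ComplexConjugate

theorem norm_prm_le (k n : O) : ‖C.prm (cb k) n‖ ≤ 1 := by
  unfold C.prm
  split_ifs
  · exact norm_cb_le k n
  · simp

theorem prm_zero (k : O) : C.prm (cb k) 0 = 0 := by
  simp [C.prm]

/-- reciprocity -/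
theorem prm_mul (w : O) {k : O} (hk : Prim k) {j : ℕ} (hj : j ≠ 0) (n : O) :
    C.prm (cb (w * k ^ j)) n = C.prm (cb w) n * cb n k ^ j := by
  unfold C.prm
  split_ifs with hn
  · rw [cb_mul_left, cb_pow_left _ _ hj, cb_recip hk hn]
  · rw [zero_mul]

/-- `cb_unit_lam_congr` -/
theorem per_unit {ζ : O} (hζ : IsUnit ζ) (i : ℕ) : Per 9 (C.prm (cb (ζ * lam ^ i))) := by
  intro a b hab
  have h3 : (3 : O) ∣ a - b := Dvd.dvd.trans ⟨3, by norm_num⟩ hab
  unfold C.prm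
  by_cases ha : Prim a
  · rw [if_pos ha, if_pos (ha.congr h3), cb_unit_lam_congr hζ i hab]
  · rw [if_neg ha, if_neg fun hb => ha (Prim.congr hb (dvd_sub_comm.1 h3))]

theorem per_mul {Q w k : O} (h : Per Q (C.prm (cb w))) (hk : Prim k) {j : ℕ} (hj : j ≠ 0) :
    Per (Q * k) (C.prm (cb (w * k ^ j))) := by
  rw [funext (prm_mul w hk hj)]
  exact (h.mono (dvd_mul_right Q k)).mul ((gsb_per j k).mono (dvd_mul_left k Q))

theorem hkaa_mul (w : O) {a : O} (ha : Prim a) (y : O) :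
    C.prm (cb w) (a * y) = cb w a * C.prm (cb w) y := by
  unfold C.prm
  by_cases hy : Prim y
  · rw [if_pos hy, if_pos (ha.mul hy), cb_mul_right]
  · rw [if_neg hy, if_neg fun h => hy (ha.of_mul h), mul_zero]

/-- `prm_mul`, `FT_crt`; `prm (cb w) (k y) = cb w k · prm (cb w) y`, `cb (Q y) k = cb Q k · cb y k`,
`gsa_FT_const_mul`, `gc_sqfree`, `norm_gc` -/
theorem FT_row {Q w k : O} (hQ : Q ≠ 0) (h : Per Q (C.prm (cb w))) (hk : PSq k)
    (hc : IsCoprime Q k) {j : ℕ} (hj : ¬ 3 ∣ j) : ∃ E : ℂ, ‖E‖ ≤ 1 ∧ ∀ y,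
      FT (Q * k) (C.prm (cb (w * k ^ j))) y =
        E * (√(nm k) : ℝ) * FT Q (C.prm (cb w)) y * conj (cb y k) ^ j := by
  have hj0 : j ≠ 0 := fun h0 => hj (h0 ▸ dvd_zero 3)
  have hs := gsb_sqrt_ne hk.ne_zero
  refine ⟨cb w k * cb Q k ^ j * (gc j 1 k / (√(nm k) : ℝ)), ?_, fun y => ?_⟩
  · rw [norm_mul, norm_mul, norm_div, norm_gc hk.2 hk.1.coprime_three hj, norm_real,
      Real.norm_of_nonneg (Real.sqrt_nonneg _), div_self (ofReal_ne_zero.1 hs), mul_one, norm_pow]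
    exact mul_le_one₀ (norm_cb_le _ _) (by positivity) (pow_le_one₀ (norm_nonneg _) (norm_cb_le _ _))
  · rw [funext (prm_mul w hk.1 hj0), FT_crt hQ hk.ne_zero hc h (gsb_per j k)]
    simp only [hkaa_mul w hk.1, cb_mul_left, mul_pow, gsa_FT_const_mul]
    have h1 := gc_sqfree hk.2 hj y
    rw [gc] at h1
    rw [h1]
    field_simp

/-- `FT_row` with `Q = 9`, `j = 2`, `norm_FT_le`, `nm 9 = 81` -/
theorem norm_FT_two {ζ k : O} (hζ : IsUnit ζ) (i : ℕ) (hk : PSq k) (y : O) :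
    ‖FT (9 * k) (C.prm (cb (ζ * lam ^ i * k ^ 2))) y‖ ≤ 9 * √(nm (9 * k)) := by
  have h9 : (9 : O) ≠ 0 := by norm_num
  have hc : IsCoprime (9 : O) k := by
    have := hk.1.coprime_three.symm.pow_left (m := 2)
    norm_num at this
    exact this
  have hn : nm (9 : O) = 81 := by
    have := nm_natCast 9
    norm_num at this
    exact this
  obtain ⟨E, hE, h⟩ := FT_row h9 (per_unit hζ i) hk hc (j := 2) (by norm_num)
  have h1 := norm_FT_le h9 (norm_prm_le (ζ * lam ^ i)) y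
  have h2 : √(81 : ℝ) = 9 := by
    rw [show (81 : ℝ) = 9 ^ 2 by norm_num, Real.sqrt_sq (by norm_num)]
  rw [hn] at h1
  rw [h, nm_mul, hn, Real.sqrt_mul (by norm_num), h2, norm_mul, norm_mul, norm_mul, norm_real,
    Real.norm_of_nonneg (Real.sqrt_nonneg _), norm_pow, norm_conj]
  calc _ ≤ 1 * √(nm k) * (81 * 1) * 1 ^ 2 := by gcongr; exact norm_cb_le y k
    _ = _ := by ring

/-- `FT_zero`, `D.exists_cb_ne_one`, `rsum_mul_arg` -/
theorem FT_zero_row {Q k : O} (hQ : Q ∣ 9 * k) (hk : k ≠ 0) (hc : ¬ Cube k)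
    (h : Per Q (C.prm (cb k))) : FT Q (C.prm (cb k)) 0 = 0 := by
  obtain ⟨a, ha, hak, h1⟩ := D.exists_cb_ne_one hk hc
  have hQ0 : Q ≠ 0 := ne_zero_of_dvd_ne_zero (mul_ne_zero (by norm_num) hk) hQ
  have h9 : IsCoprime a (9 : O) := by
    have := ha.coprime_three.pow_right (n := 2)
    norm_num at this
    exact this
  have h2 := rsum_mul_arg hQ0 ((h9.mul_right hak).of_isCoprime_of_dvd_right hQ) h
  simp only [hkaa_mul k ha, rsum_mul_left] at h2
  rw [FT_zero]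
  exact (mul_eq_zero.1 (by linear_combination h2)).resolve_left (sub_ne_zero.2 h1)

/-- `exists_decomp`, then `Prim.induction_coprime` (`p^(e+1)`, `e + 1 mod 3`) -/
theorem row_decomp {k : O} (hk : k ≠ 0) : ∃ (ζ : O) (i : ℕ) (k₁ k₂ m : O), IsUnit ζ ∧ PSq k₁ ∧
    PSq k₂ ∧ IsCoprime k₁ k₂ ∧ Prim m ∧ k = ζ * lam ^ i * k₂ ^ 2 * k₁ * m ^ 3 := by
  obtain ⟨u, k₁, k₂, m, hu, h₁, h₂, hc, hm, rfl⟩ := exists_cube_dec hk
  obtain ⟨j, i, -, -, rfl⟩ := bc_mem_U9.1 hu
  obtain ⟨ζ, i', m', hζ, hm', rfl⟩ := exists_decomp hm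
  exact ⟨om ^ j * ζ ^ 3, i + i' * 3, k₁, k₂, m', (isUnit_om.pow j).mul (hζ.pow 3), h₁, h₂, hc, hm',
    by ring⟩

/-- `tsum_Pr_eq` -/
theorem PSc_eq (l : ℤ) (k : O) (M t : ℝ) :
    PSc l k M t = SS (fun n => C.prm (cb k) n * al n ^ l) nm 1 M t := by
  unfold PSc SS
  rw [tsum_Pr_eq fun n => cb k n * pl l M t n]
  refine tsum_congr fun n => ?_
  by_cases h : Prim n <;> simp [C.prm, pl, h, mul_assoc]

/-- `cb (m³) n = 1[(m,n) = 1] = ∑_{d ∣ m, d ∣ n} μ(d)` (`cb_pow_three`, `sum_mu_coprime`),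
`Summable.tsum_finsetSum`, `tsum_Pr_dvd`, `LN_mul_arg`; summability from `adm_Pr`, `Adm.summable_SS` -/
theorem PSc_mask (l : ℤ) (k : O) {m : O} (hm : Prim m) {M : ℝ} (hM : 0 < M) (t : ℝ) :
    ‖PSc l (k * m ^ 3) M t‖ ≤ ∑ d ∈ pdiv m, ‖PSc l k (M / nm d) t‖ := by
  classical
  have hal : ∀ {n : O}, n ≠ 0 → ‖al n ^ l‖ = 1 := fun hn => by rw [norm_zpow, norm_al hn, one_zpow]
  have hsum : Summable fun n : Pr => ‖cb k n * pl l M t n‖ := by
    have h1 : Adm (fun n : Pr => cb k n * al n ^ l) (fun n => nm n) 2 :=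
      adm_Pr (by norm_num) (M := 1) fun n => by
        rw [norm_mul, hal (Prim.ne_zero n.2), mul_one]; exact norm_cb_le _ _
    simpa only [pl, mul_assoc] using h1.summable_SS one_pos hM t
  have e1 : PSc l (k * m ^ 3) M t =
      ∑ d ∈ pdiv m, mu d * ∑' n : Pr, if d ∣ (n : O) then cb k n * pl l M t n else 0 := by
    unfold PSc
    simp only [← tsum_mul_left]
    rw [← Summable.tsum_finsetSum]
    · refine tsum_congr fun n => ?_
      have h2 := sum_mu_coprime' hm.ne_zero (Prim.not_lam_dvd n.2)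
      rw [cb_mul_cube k m n.2]
      calc (if IsCoprime (n : O) m then cb k n else 0) * pl l M t n
          = (if IsCoprime (n : O) m then 1 else 0) * (cb k n * pl l M t n) := by split_ifs <;> simp
        _ = _ := by
          rw [← h2, Finset.sum_mul]
          refine Finset.sum_congr rfl fun d _ => ?_
          split_ifs <;> simp
    · intro d _
      refine Summable.mul_left _ (Summable.of_norm_bounded hsum fun n => ?_)
      split_ifs <;> simp
      positivity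
  rw [e1]
  refine (norm_sum_le _ _).trans (Finset.sum_le_sum fun d hd => ?_)
  have hd' : Prim d := ((mem_pdiv hm.ne_zero).1 hd).1
  rw [tsum_Pr_dvd hd' fun n => cb k n * pl l M t n]
  have e2 : ∑' n : Pr, cb k (d * n) * pl l M t (d * n) =
      cb k d * al d ^ l * PSc l k (M / nm d) t := by
    unfold PSc
    rw [← tsum_mul_left]
    refine tsum_congr fun n => ?_
    simp only [pl, cb_mul_right, al_mul, mul_zpow, nm_mul, LN_mul_arg]
    ring
  rw [e2, norm_mul, norm_mul, norm_mul, hal hd'.ne_zero, mul_one]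
  have h3 := norm_mu_le d
  have h4 := norm_cb_le k d
  calc ‖mu d‖ * (‖cb k d‖ * ‖PSc l k (M / nm d) t‖) ≤ 1 * (1 * ‖PSc l k (M / nm d) t‖) := by gcongr
    _ = _ := by ring

end Crest.Agent.R12.HK
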