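import Crest.Agent.R12.HK.Defs

/-! Row 12, block HK: the large sieve for products of dual sums. -/

set_option autoImplicit false

namespace Crest.Agent.R12.HK

open Crest.Agent.R17 Complex MeasureTheory Filter Set
open scoped Real Topology ComplexConjugate

theorem lsa_split {M : ℝ} {f : O → ℂ} (h0 : f 0 = 0) :
    ∑ n ∈ ball M, f n = ∑ t ∈ Finset.range 6 ×ˢ Finset.range (⌊Real.log M⌋₊ + 1), ∑ n ∈ pball M,
      if nm (zt ^ t.1 * lam ^ t.2 * n) ≤ M then f (zt ^ t.1 * lam ^ t.2 * n) else 0 := by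
  rw [← Finset.sum_product', ← Finset.sum_filter]
  refine (Finset.sum_of_injOn (fun x : (ℕ × ℕ) × O => zt ^ x.1.1 * lam ^ x.1.2 * x.2) ?_ ?_ ?_
    fun _ _ => rfl).symm
  · rintro ⟨⟨a, i⟩, n⟩ h1 ⟨⟨a', i'⟩, n'⟩ h2 h3
    simp only [Finset.coe_filter, Finset.mem_product, Finset.mem_range, mem_pball, mem_ofPred_eq]
      at h1 h2
    obtain ⟨e1, e2, e3⟩ := decomp_unique (isUnit_zt.pow _) (isUnit_zt.pow _) h1.1.2.2 h2.1.2.2 h3
    exact Prod.ext (Prod.ext (zt_pow_inj h1.1.1.1 h2.1.1.1 e1) e2) e3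
  · intro x hx
    exact Finset.mem_coe.2 (mem_ball.2 (Finset.mem_filter.1 hx).2)
  · intro n hn hn'
    by_contra hf
    have hn0 : n ≠ 0 := fun h => hf (h ▸ h0)
    obtain ⟨ζ, i, m, hζ, hm, rfl⟩ := exists_decomp hn0
    obtain ⟨a, ha, rfl⟩ := isUnit_iff.1 hζ
    have hM := mem_ball.1 hn
    have h1 := hM
    rw [nm_mul, nm_mul, nm_unit hζ, nm_pow, nm_lam, one_mul] at h1
    have h2 := one_le_nm hm.ne_zero
    have h3 : (1 : ℝ) ≤ 3 ^ i := one_le_pow₀ (by norm_num)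
    refine hn' ⟨((a, i), m), ?_, rfl⟩
    simp only [Finset.coe_filter, Finset.mem_product, Finset.mem_range, mem_pball, mem_ofPred_eq]
    refine ⟨⟨⟨ha, Nat.lt_succ_of_le (Nat.le_floor ?_)⟩, ?_, hm⟩, hM⟩
    · have h4 : Real.exp i ≤ 3 ^ i := by
        rw [← Real.exp_one_pow]
        exact pow_le_pow_left₀ (Real.exp_pos 1).le (Real.exp_one_lt_d9.le.trans (by norm_num)) i
      have h5 : (3 : ℝ) ^ i ≤ M := (le_mul_of_one_le_right (by positivity) h2).trans h1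
      exact (Real.le_log_iff_exp_le (by linarith)).2 (h4.trans h5)
    · exact (le_mul_of_one_le_left (nm_nonneg m) h3).trans h1

/-- All columns.  `h = zt^a λ^i n` with `a < 6`, `3^i ≤ M`, `n ∈ pball M` (`exists_decomp`, `decomp_unique`,
`isUnit_iff`; `Finset.sum_bij`/`sum_nbij'` or `tsum_decomp`), `cb (u n) k = cb u k · cb k n` (`cb_recip`);
Cauchy–Schwarz over the at most `6 (1 + log M)` pairs `(a, i)`, `StLSG` with `ε/2` for the conjugate
coefficients `n ↦ conj (if N(zt^a λ^i n) ≤ M then c (zt^a λ^i n) else 0)`, `one_add_log_rpow_le`. -/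
theorem ls_all (h : StLSG) {ε : ℝ} (hε : 0 < ε) : ∃ C : ℝ, 0 < C ∧
    ∀ (K M : ℝ) (S : Finset O) (c : O → ℂ), 1 ≤ K → 1 ≤ M → (∀ k ∈ S, PSq k ∧ nm k ≤ K) →
      c 0 = 0 → (∀ n, ‖c n‖ ≤ 1) →
      ∑ k ∈ S, ‖∑ n ∈ ball M, c n * conj (cb n k)‖ ^ 2 ≤
        C * (K * M) ^ ε * (K + M + (K * M) ^ (2 / 3 : ℝ)) * M := by
  obtain ⟨C₀, H⟩ := h (ε / 2) (half_pos hε)
  obtain ⟨C₁, hC₁, H₁⟩ := one_add_log_rpow_le 2 (half_pos hε)
  refine ⟨36 * C₁ * (|C₀| + 1), by positivity, fun K M S c hK hM hS h0 hc => ?_⟩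
  obtain ⟨T, hT⟩ : ∃ T, T = Finset.range 6 ×ˢ Finset.range (⌊Real.log M⌋₊ + 1) := ⟨_, rfl⟩
  let d : ℕ × ℕ → O → ℂ := fun t n =>
    conj (if nm (zt ^ t.1 * lam ^ t.2 * n) ≤ M then c (zt ^ t.1 * lam ^ t.2 * n) else 0)
  have hd : ∀ t n, ‖d t n‖ ≤ 1 := fun t n => by
    simp only [d, RCLike.norm_conj]
    split_ifs
    · exact hc _
    · simp
  have h1 : ∀ k ∈ S, ‖∑ n ∈ ball M, c n * conj (cb n k)‖ ^ 2 ≤
      T.card * ∑ t ∈ T, ‖∑ n ∈ pball M, d t n * cb k n‖ ^ 2 := by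
    intro k hk
    rw [lsa_split (by rw [h0, zero_mul]), ← hT]
    refine le_trans ?_ sq_sum_le_card_mul_sum_sq
    refine pow_le_pow_left₀ (norm_nonneg _) ((norm_sum_le _ _).trans
      (Finset.sum_le_sum fun t _ => ?_)) 2
    have e : (∑ n ∈ pball M, if nm (zt ^ t.1 * lam ^ t.2 * n) ≤ M then
        c (zt ^ t.1 * lam ^ t.2 * n) * conj (cb (zt ^ t.1 * lam ^ t.2 * n) k) else 0) =
        conj (cb (zt ^ t.1 * lam ^ t.2) k * ∑ n ∈ pball M, d t n * cb k n) := by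
      rw [Finset.mul_sum, map_sum]
      refine Finset.sum_congr rfl fun n hn => ?_
      rw [cb_mul_left, cb_recip (mem_pball.1 hn).2 (hS k hk).1.1]
      simp only [d, map_mul, conj_conj]
      split_ifs <;> ring
    rw [e, RCLike.norm_conj, norm_mul]
    exact mul_le_of_le_one_left (norm_nonneg _) (norm_cb_le _ _)
  have hKM : 1 ≤ K * M := one_le_mul_of_one_le_of_one_le hK hM
  have hlog := Real.log_nonneg hM
  have hcard : (T.card : ℝ) ≤ 6 * (1 + Real.log M) := by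
    rw [hT, Finset.card_product, Finset.card_range, Finset.card_range]
    push_cast
    linarith [Nat.floor_le hlog]
  obtain ⟨B, hB⟩ : ∃ B, B = (K + M + (K * M) ^ (2 / 3 : ℝ)) * M := ⟨_, rfl⟩
  have hB0 : 0 ≤ B := by rw [hB]; positivity
  have h2 : ∀ t ∈ T, ∑ k ∈ S, ‖∑ n ∈ pball M, d t n * cb k n‖ ^ 2 ≤
      (|C₀| + 1) * (K * M) ^ (ε / 2) * B := fun t _ => by
    refine (H K M S (d t) hK hM hS (hd t)).trans ?_
    rw [mul_assoc, ← hB]
    gcongr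
    linarith [le_abs_self C₀]
  have h3 : (T.card : ℝ) ^ 2 ≤ 36 * C₁ * (K * M) ^ (ε / 2) := by
    have e1 := H₁ M hM
    rw [Real.rpow_two] at e1
    have e2 : M ^ (ε / 2) ≤ (K * M) ^ (ε / 2) :=
      Real.rpow_le_rpow (by linarith) (le_mul_of_one_le_left (by linarith) hK) (by positivity)
    calc (T.card : ℝ) ^ 2 ≤ (6 * (1 + Real.log M)) ^ 2 := by gcongr
      _ = 36 * (1 + Real.log M) ^ 2 := by ring
      _ ≤ 36 * (C₁ * (K * M) ^ (ε / 2)) := by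
        gcongr
        exact e1.trans (by gcongr)
      _ = _ := by ring
  refine (Finset.sum_le_sum h1).trans ?_
  rw [← Finset.mul_sum, Finset.sum_comm]
  have h4 := Finset.sum_le_card_nsmul _ _ _ h2
  rw [nsmul_eq_mul] at h4
  refine (mul_le_mul_of_nonneg_left h4 (Nat.cast_nonneg _)).trans ?_
  have h5 : (K * M) ^ ε = (K * M) ^ (ε / 2) * (K * M) ^ (ε / 2) := by
    rw [← Real.rpow_add (by positivity), add_halves]
  rw [← mul_assoc, ← sq, mul_assoc _ _ M, ← hB, h5]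
  refine (mul_le_mul_of_nonneg_right h3 (by positivity)).trans_eq ?_
  ring

theorem Gd.summable {D e N : ℝ} {c : O → ℂ} (h : Gd D e N c) (he : e ≤ 1) :
    Summable fun n => ‖c n‖ := by
  refine Summable.of_nonneg_of_le (fun _ => norm_nonneg _) (fun n => ?_)
    ((summable_nm_rpow (σ := 2) one_lt_two).mul_left |D * N ^ 3|)
  by_cases hn : n = 0
  · rw [hn, h.1, norm_zero]
    exact mul_nonneg (abs_nonneg _) (Real.rpow_nonneg (nm_nonneg _) _)
  · have hp := nm_pos hn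
    have e1 : D * nm n ^ e * (N / nm n) ^ 3 = D * N ^ 3 * nm n ^ (e - 3) := by
      rw [Real.rpow_sub hp, div_pow, show (3 : ℝ) = ((3 : ℕ) : ℝ) by norm_num, Real.rpow_natCast]
      ring
    refine (h.2 n hn).2.trans (e1.le.trans (mul_le_mul (le_abs_self _) ?_ (Real.rpow_nonneg hp.le _) (abs_nonneg _)))
    exact Real.rpow_le_rpow_of_exponent_le (one_le_nm hn) (by linarith)

theorem Gd.mono {D D' e e' N : ℝ} {c : O → ℂ} (h : Gd D e N c) (hN : 0 ≤ N) (hD : 0 ≤ D')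
    (h1 : D ≤ D') (h2 : e ≤ e') : Gd D' e' N c := by
  refine ⟨h.1, fun n hn => ?_⟩
  have hp := nm_pos hn
  have h3 : D * nm n ^ e ≤ D' * nm n ^ e' :=
    mul_le_mul h1 (Real.rpow_le_rpow_of_exponent_le (one_le_nm hn) h2) (Real.rpow_nonneg hp.le _) hD
  exact ⟨(h.2 n hn).1.trans h3, (h.2 n hn).2.trans (mul_le_mul_of_nonneg_right h3 (by positivity))⟩

/-- `ls_all` for coefficients bounded by `A` and any `M > 0` -/
theorem lsb_scaled (h : StLSG) {ε : ℝ} (hε : 0 < ε) : ∃ C : ℝ, 0 < C ∧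
    ∀ (K M A : ℝ) (S : Finset O) (c : O → ℂ), 1 ≤ K → 0 < M → (∀ k ∈ S, PSq k ∧ nm k ≤ K) →
      c 0 = 0 → (∀ n, ‖c n‖ ≤ A) →
      ∑ k ∈ S, ‖∑ n ∈ ball M, c n * conj (cb n k)‖ ^ 2 ≤
        A ^ 2 * (C * (K * M) ^ ε * (K + M + (K * M) ^ (2 / 3 : ℝ)) * M) := by
  obtain ⟨C, hC, H⟩ := ls_all h hε
  refine ⟨C, hC, fun K M A S c hK hM hS h0 hc => ?_⟩
  have hK0 : 0 < K := by linarith
  have hz : (∀ n ∈ ball M, c n = 0) → ∑ k ∈ S, ‖∑ n ∈ ball M, c n * conj (cb n k)‖ ^ 2 ≤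
      A ^ 2 * (C * (K * M) ^ ε * (K + M + (K * M) ^ (2 / 3 : ℝ)) * M) := fun hz => by
    rw [Finset.sum_eq_zero fun k _ => by
      rw [Finset.sum_eq_zero fun n hn => by rw [hz n hn, zero_mul], norm_zero, zero_pow two_ne_zero]]
    positivity
  rcases lt_or_ge M 1 with hM1 | hM1
  · refine hz fun n hn => ?_
    by_cases hn0 : n = 0
    · rw [hn0, h0]
    · exact absurd ((one_le_nm hn0).trans (mem_ball.1 hn)) (not_le.2 hM1)
  rcases ((norm_nonneg _).trans (hc 0)).eq_or_lt with hA | hA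
  · exact hz fun n _ => norm_le_zero_iff.1 ((hc n).trans hA.ge)
  have h1 := H K M S (fun n => c n / A) hK hM1 hS (by rw [h0, zero_div]) fun n => by
    rw [norm_div, Complex.norm_real, Real.norm_of_nonneg hA.le, div_le_one hA]
    exact hc n
  refine le_trans (le_of_eq ?_) (mul_le_mul_of_nonneg_left h1 (sq_nonneg A))
  rw [Finset.mul_sum]
  refine Finset.sum_congr rfl fun k _ => ?_
  have hA' : (A : ℂ) ≠ 0 := Complex.ofReal_ne_zero.2 hA.ne'
  have e : ∑ n ∈ ball M, c n * conj (cb n k) = A * ∑ n ∈ ball M, c n / A * conj (cb n k) := by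
    rw [Finset.mul_sum]
    exact Finset.sum_congr rfl fun n _ => by field_simp
  rw [e, norm_mul, Complex.norm_real, Real.norm_of_nonneg hA.le, mul_pow]

open Classical in
/-- the `j`-th dyadic block -/
noncomputable def lsb_blk (N : ℝ) (c : O → ℂ) (j : ℕ) (n : O) : ℂ :=
  if nm n ≤ 2 ^ j * N ∧ (j = 0 ∨ 2 ^ j * N < 2 * nm n) then c n else 0

theorem lsb_sum_blk {N : ℝ} (hN : 0 < N) (c χ : O → ℂ) (J : ℕ) :
    ∑ n ∈ ball (2 ^ J * N), c n * χ n =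
      ∑ j ∈ Finset.range (J + 1), ∑ n ∈ ball (2 ^ j * N), lsb_blk N c j n * χ n := by
  classical
  induction J with
  | zero =>
    rw [Finset.sum_range_one]
    exact Finset.sum_congr rfl fun n hn => by rw [lsb_blk, if_pos ⟨mem_ball.1 hn, .inl rfl⟩]
  | succ J ih =>
    rw [Finset.sum_range_succ, ← ih,
      ← Finset.sum_filter_add_sum_filter_not (ball (2 ^ (J + 1) * N)) fun n => nm n ≤ 2 ^ J * N]
    have hp : (0 : ℝ) < 2 ^ J * N := by positivity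
    have e : (2 : ℝ) ^ (J + 1) * N = 2 * (2 ^ J * N) := by ring
    congr 1
    · refine Finset.sum_congr (Finset.ext fun n => ?_) fun _ _ => rfl
      rw [Finset.mem_filter, mem_ball, mem_ball, e]
      exact ⟨fun h => h.2, fun h => ⟨by linarith, h⟩⟩
    · rw [Finset.sum_filter]
      refine Finset.sum_congr rfl fun n hn => ?_
      rw [lsb_blk]
      by_cases h : nm n ≤ 2 ^ J * N
      · rw [if_neg (not_not.2 h), if_neg, zero_mul]
        rintro ⟨-, h1 | h1⟩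
        · omega
        · rw [e] at h1; linarith
      · rw [if_pos h, if_pos ⟨mem_ball.1 hn, .inr (by rw [e]; linarith [not_le.1 h])⟩]

theorem lsb_blk_le {D ε N : ℝ} {c : O → ℂ} (h : Gd D ε N c) (hD : 0 ≤ D) (hε : 0 ≤ ε) (hN : 0 < N) (j : ℕ)
    (n : O) : ‖lsb_blk N c j n‖ ≤ 8 * D * (2 ^ j * N) ^ ε * (1 / 8) ^ j := by
  have h0 : 0 ≤ 8 * D * (2 ^ j * N) ^ ε * (1 / 8) ^ j := by positivity
  rw [lsb_blk]
  split_ifs with hc
  swap
  · rwa [norm_zero]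
  by_cases hn : n = 0
  · rwa [hn, h.1, norm_zero]
  have hp := nm_pos hn
  have h1 : D * nm n ^ ε ≤ D * (2 ^ j * N) ^ ε :=
    mul_le_mul_of_nonneg_left (Real.rpow_le_rpow hp.le hc.1 hε) hD
  have h2 : 0 ≤ D * (2 ^ j * N) ^ ε := by positivity
  rcases hc.2 with rfl | h3
  · refine (h.2 n hn).1.trans (h1.trans ?_)
    rw [pow_zero (1 / 8 : ℝ)]
    linarith
  · have h4 : N / nm n ≤ 2 * (1 / 2) ^ j := by
      rw [div_le_iff₀ hp, one_div_pow, mul_one_div, div_mul_eq_mul_div, le_div_iff₀ (by positivity)]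
      linarith
    have h5 : (N / nm n) ^ 3 ≤ 8 * (1 / 8) ^ j := by
      refine (pow_le_pow_left₀ (by positivity) h4 3).trans (le_of_eq ?_)
      rw [mul_pow, ← pow_mul, mul_comm j, pow_mul]
      norm_num
    refine (h.2 n hn).2.trans ((mul_le_mul h1 h5 (by positivity) h2).trans (le_of_eq (by ring)))

theorem lsb_num {ε K N : ℝ} (hε : 0 < ε) (hε1 : ε ≤ 1 / 3) (hK : 1 ≤ K) (hN : 0 < N) {u : ℝ} (hu : 1 ≤ u) :
    ((u * N) ^ ε) ^ 2 * ((K * (u * N)) ^ ε * (K + u * N + (K * (u * N)) ^ (2 / 3 : ℝ)) * (u * N)) ≤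
      u ^ 3 * ((K * N) ^ (3 * ε) * (K + N + (K * N) ^ (2 / 3 : ℝ)) * N) := by
  have hK0 : 0 < K := by linarith
  have hu0 : 0 < u := by linarith
  have e : K * (u * N) = u * (K * N) := by ring
  have h1 : (u * N) ^ ε ≤ (K * (u * N)) ^ ε :=
    Real.rpow_le_rpow (by positivity) (le_mul_of_one_le_left (by positivity) hK) hε.le
  have h2 : ((K * (u * N)) ^ ε) ^ 3 ≤ u * (K * N) ^ (3 * ε) := by
    rw [← Real.rpow_natCast, ← Real.rpow_mul (by positivity), e, Real.mul_rpow hu0.le (by positivity),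
      Nat.cast_ofNat, mul_comm ε]
    refine mul_le_mul_of_nonneg_right ?_ (by positivity)
    exact (Real.rpow_le_rpow_of_exponent_le hu (by linarith : 3 * ε ≤ 1)).trans (Real.rpow_one u).le
  have h3 : (K * (u * N)) ^ (2 / 3 : ℝ) ≤ u * (K * N) ^ (2 / 3 : ℝ) := by
    rw [e, Real.mul_rpow hu0.le (by positivity)]
    refine mul_le_mul_of_nonneg_right ?_ (by positivity)
    exact (Real.rpow_le_rpow_of_exponent_le hu (by norm_num : (2 / 3 : ℝ) ≤ 1)).trans (Real.rpow_one u).le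
  have h4 : K + u * N + (K * (u * N)) ^ (2 / 3 : ℝ) ≤ u * (K + N + (K * N) ^ (2 / 3 : ℝ)) := by
    nlinarith
  calc ((u * N) ^ ε) ^ 2 * ((K * (u * N)) ^ ε * (K + u * N + (K * (u * N)) ^ (2 / 3 : ℝ)) * (u * N))
      ≤ ((K * (u * N)) ^ ε) ^ 2 * ((K * (u * N)) ^ ε * (u * (K + N + (K * N) ^ (2 / 3 : ℝ))) * (u * N)) := by
        gcongr
    _ = ((K * (u * N)) ^ ε) ^ 3 * (u ^ 2 * ((K + N + (K * N) ^ (2 / 3 : ℝ)) * N)) := by ring
    _ ≤ u * (K * N) ^ (3 * ε) * (u ^ 2 * ((K + N + (K * N) ^ (2 / 3 : ℝ)) * N)) := by gcongr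
    _ = _ := by ring

theorem lsb_geom (J : ℕ) : ∑ j ∈ Finset.range J, (1 / 2 : ℝ) ^ j ≤ 2 := by
  have := summable_geometric_two.sum_le_tsum (Finset.range J) (fun j _ => by positivity)
  rwa [tsum_geometric_two] at this

theorem lsb_cs (x : ℕ → ℂ) (J : ℕ) :
    ‖∑ j ∈ Finset.range J, x j‖ ^ 2 ≤ 2 * ∑ j ∈ Finset.range J, 2 ^ j * ‖x j‖ ^ 2 := by
  refine (pow_le_pow_left₀ (norm_nonneg _) (norm_sum_le _ _) 2).trans ?_
  refine (Finset.sum_sq_le_sum_mul_sum_of_sq_le_mul (f := fun j => (1 / 2 : ℝ) ^ j)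
    (g := fun j => 2 ^ j * ‖x j‖ ^ 2) _ (fun j _ => by positivity) (fun j _ => by positivity)
    fun j _ => le_of_eq ?_).trans ?_
  · rw [← mul_assoc, ← mul_pow]
    norm_num
  · exact mul_le_mul_of_nonneg_right (lsb_geom J) (Finset.sum_nonneg fun j _ => by positivity)

/-- Blocks `N n ≤ N` and `2^j N < N n ≤ 2^(j+1) N`.  On a block with upper end `M = 2^j N`: empty if
`M < 1`, else `‖c‖ ≤ 8 D M^ε 8^{-j}` and `ls_all` give `64 C D² B 2^{j (3ε + 2 - 6)}`,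
`B = (K N)^{3ε} (K + N + (K N)^{2/3}) N`.  Cauchy–Schwarz over `j` with weights `2^{-j}` bounds the sum
over `ball (2^J N)`; let `J → ∞` (`Gd.summable`, `le_of_tendsto'`). -/
theorem ls_gd (h : StLSG) {ε : ℝ} (hε : 0 < ε) (hε1 : ε ≤ 1 / 3) : ∃ C : ℝ, 0 < C ∧
    ∀ (K N D : ℝ) (S : Finset O) (c : O → ℂ), 1 ≤ K → 0 < N → 0 ≤ D →
      (∀ k ∈ S, PSq k ∧ nm k ≤ K) → Gd D ε N c →
      ∑ k ∈ S, ‖∑' n : O, c n * conj (cb n k)‖ ^ 2 ≤
        C * D ^ 2 * (K * N) ^ (3 * ε) * (K + N + (K * N) ^ (2 / 3 : ℝ)) * N := by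
  obtain ⟨C, hC, H⟩ := lsb_scaled h hε
  refine ⟨256 * C, by positivity, fun K N D S c hK hN hD hS hc => ?_⟩
  have hK0 : 0 < K := by linarith
  set B : ℝ := (K * N) ^ (3 * ε) * (K + N + (K * N) ^ (2 / 3 : ℝ)) * N with hB
  have hB0 : 0 ≤ B := by positivity
  have hblk : ∀ j : ℕ, 2 ^ j * ∑ k ∈ S, ‖∑ n ∈ ball (2 ^ j * N), lsb_blk N c j n * conj (cb n k)‖ ^ 2 ≤
      64 * C * D ^ 2 * B * (1 / 2) ^ j := fun j => by
    have h1 := H K (2 ^ j * N) _ S (lsb_blk N c j) hK (by positivity) hS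
      (by rw [lsb_blk, hc.1, ite_self]) (lsb_blk_le hc hD hε.le hN j)
    have h2 := lsb_num hε hε1 hK hN (u := 2 ^ j) (one_le_pow₀ one_le_two)
    have h3 : (2 : ℝ) ^ j * (((1 / 8) ^ j) ^ 2 * (2 ^ j) ^ 3) ≤ (1 / 2) ^ j := by
      rw [← pow_mul, ← pow_mul, mul_comm j, mul_comm j, pow_mul, pow_mul, ← mul_pow, ← mul_pow]
      exact pow_le_pow_left₀ (by norm_num) (by norm_num) j
    calc 2 ^ j * ∑ k ∈ S, ‖∑ n ∈ ball (2 ^ j * N), lsb_blk N c j n * conj (cb n k)‖ ^ 2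
        ≤ 2 ^ j * ((8 * D * (2 ^ j * N) ^ ε * (1 / 8) ^ j) ^ 2 * (C * (K * (2 ^ j * N)) ^ ε *
            (K + 2 ^ j * N + (K * (2 ^ j * N)) ^ (2 / 3 : ℝ)) * (2 ^ j * N))) := by gcongr
      _ = 64 * C * D ^ 2 * (2 ^ j * ((1 / 8) ^ j) ^ 2) * (((2 ^ j * N) ^ ε) ^ 2 * ((K * (2 ^ j * N)) ^ ε *
            (K + 2 ^ j * N + (K * (2 ^ j * N)) ^ (2 / 3 : ℝ)) * (2 ^ j * N))) := by ring
      _ ≤ 64 * C * D ^ 2 * (2 ^ j * ((1 / 8) ^ j) ^ 2) * ((2 ^ j) ^ 3 * B) := by gcongr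
      _ = 64 * C * D ^ 2 * B * (2 ^ j * (((1 / 8) ^ j) ^ 2 * (2 ^ j) ^ 3)) := by ring
      _ ≤ _ := by gcongr
  have hJ : ∀ J : ℕ, ∑ k ∈ S, ‖∑ n ∈ ball (2 ^ J * N), c n * conj (cb n k)‖ ^ 2 ≤ 256 * C * D ^ 2 * B := fun J =>
    calc ∑ k ∈ S, ‖∑ n ∈ ball (2 ^ J * N), c n * conj (cb n k)‖ ^ 2
        ≤ ∑ k ∈ S, 2 * ∑ j ∈ Finset.range (J + 1),
            2 ^ j * ‖∑ n ∈ ball (2 ^ j * N), lsb_blk N c j n * conj (cb n k)‖ ^ 2 := by
          refine Finset.sum_le_sum fun k _ => ?_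
          rw [lsb_sum_blk hN c (fun n => conj (cb n k)) J]
          exact lsb_cs _ _
      _ = 2 * ∑ j ∈ Finset.range (J + 1),
            2 ^ j * ∑ k ∈ S, ‖∑ n ∈ ball (2 ^ j * N), lsb_blk N c j n * conj (cb n k)‖ ^ 2 := by
          rw [← Finset.mul_sum, Finset.sum_comm]
          simp only [Finset.mul_sum]
      _ ≤ 2 * ∑ j ∈ Finset.range (J + 1), 64 * C * D ^ 2 * B * (1 / 2) ^ j :=
          mul_le_mul_of_nonneg_left (Finset.sum_le_sum fun j _ => hblk j) zero_le_two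
      _ ≤ 2 * (64 * C * D ^ 2 * B * 2) := by
          rw [← Finset.mul_sum]
          gcongr
          exact lsb_geom _
      _ = _ := by ring
  have hT : Tendsto (fun J : ℕ => ball (2 ^ J * N)) atTop atTop := by
    refine tendsto_atTop_finset_of_monotone (fun i j hij n hn => ?_) fun n => ?_
    · exact mem_ball.2 ((mem_ball.1 hn).trans (by gcongr; exact one_le_two))
    · obtain ⟨j, hj⟩ := pow_unbounded_of_one_lt (nm n / N) (one_lt_two (α := ℝ))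
      exact ⟨j, mem_ball.2 ((div_lt_iff₀ hN).1 hj).le⟩
  have hs : ∀ k, Summable fun n : O => c n * conj (cb n k) := fun k =>
    Summable.of_norm_bounded (hc.summable (by linarith)) fun n => by
      rw [norm_mul, Complex.norm_conj]
      exact mul_le_of_le_one_right (norm_nonneg _) (norm_cb_le _ _)
  have hL : Tendsto (fun J : ℕ => ∑ k ∈ S, ‖∑ n ∈ ball (2 ^ J * N), c n * conj (cb n k)‖ ^ 2) atTop
      (𝓝 (∑ k ∈ S, ‖∑' n : O, c n * conj (cb n k)‖ ^ 2)) :=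
    tendsto_finsetSum S fun k _ => (((hs k).hasSum.comp hT).norm.pow 2)
  exact (le_of_tendsto' hL hJ).trans (le_of_eq (by rw [hB]; ring))

theorem gdc_fib {h : O} (hh : h ≠ 0) :
    ∃ F : Finset (O × O), (fun p : O × O => p.1 * p.2) ⁻¹' {h} = ↑F := by
  classical
  refine ⟨(ball (nm h) ×ˢ ball (nm h)).filter fun p => p.1 * p.2 = h, Set.ext fun p => ?_⟩
  simp only [Set.mem_preimage, Set.mem_singleton_iff, Finset.coe_filter, Finset.mem_product, mem_ball,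
    Set.mem_ofPred_eq]
  refine ⟨fun hp => ⟨?_, hp⟩, fun hp => hp.2⟩
  rw [← hp, nm_mul]
  exact ⟨le_mul_of_one_le_right (nm_nonneg _) (one_le_nm (right_ne_zero_of_mul (hp ▸ hh))),
    le_mul_of_one_le_left (nm_nonneg _) (one_le_nm (left_ne_zero_of_mul (hp ▸ hh)))⟩

/-- Dirichlet convolution on `O`: `c h = ∑_{a ∣ h} c₁ a · c₂ (h / a)` (a finite sum for `h ≠ 0`, e.g. over
the pairs `p ∈ ball (nm h) ×ˢ ball (nm h)` with `p.1 p.2 = h`); `card_divisors_le`;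
`tsum_mul_tsum_of_summable_norm`, `HasSum.sigma`/`Equiv.sigmaFiberEquiv` (see `prc_fiber`). -/
theorem gd_conv {δ : ℝ} (hδ : 0 < δ) : ∃ C : ℝ, 0 < C ∧
    ∀ (D₁ D₂ e N₁ N₂ : ℝ) (c₁ c₂ : O → ℂ), 0 ≤ D₁ → 0 ≤ D₂ → 0 ≤ e → e ≤ 1 → 0 < N₁ → 0 < N₂ →
      Gd D₁ e N₁ c₁ → Gd D₂ 0 N₂ c₂ → ∃ c : O → ℂ, Gd (C * D₁ * D₂) (e + δ) (N₁ * N₂) c ∧
        ∀ χ : O → ℂ, (∀ a b, χ (a * b) = χ a * χ b) → (∀ a, ‖χ a‖ ≤ 1) →
          (∑' n, c₁ n * χ n) * ∑' n, c₂ n * χ n = ∑' n, c n * χ n := by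
  classical
  obtain ⟨C, hC, hcard⟩ := card_divisors_le hδ
  refine ⟨C, hC, fun D₁ D₂ e N₁ N₂ c₁ c₂ hD₁ hD₂ he he1 hN₁ hN₂ h₁ h₂ =>
    ⟨fun h => ∑' p : ((fun p : O × O => p.1 * p.2) ⁻¹' {h} : Set (O × O)), c₁ p.1.1 * c₂ p.1.2,
      ⟨?_, fun h hh => ?_⟩, fun χ hχ hχ1 => ?_⟩⟩
  · refine (tsum_congr fun p => ?_).trans tsum_zero
    rcases mul_eq_zero.1 (show p.1.1 * p.1.2 = 0 from p.2) with h | h
    · rw [h, h₁.1, zero_mul]
    · rw [h, h₂.1, mul_zero]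
  · obtain ⟨F, hF⟩ := gdc_fib hh
    have hm : ∀ p ∈ F, p.1 * p.2 = h := fun p hp => by
      have : p ∈ (fun p : O × O => p.1 * p.2) ⁻¹' {h} := by rw [hF]; exact hp
      exact this
    have hc : (F.card : ℝ) ≤ C * nm h ^ δ := by
      rw [← Finset.card_image_of_injOn (f := Prod.fst) fun p hp q hq hpq => ?_]
      · refine hcard h _ hh fun d hd => ?_
        obtain ⟨p, hp, rfl⟩ := Finset.mem_image.1 hd
        exact ⟨p.2, (hm p hp).symm⟩
      · have e1 := hm p hp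
        have e2 := hm q hq
        have h0 : q.1 ≠ 0 := left_ne_zero_of_mul (e2 ▸ hh)
        rw [hpq, ← e2] at e1
        exact Prod.ext hpq (mul_left_cancel₀ h0 e1)
    have hp0 := nm_pos hh
    have key : ∀ b : ℝ, 0 ≤ b → (∀ x y : O, x * y = h → ‖c₁ x‖ * ‖c₂ y‖ ≤ D₁ * D₂ * nm h ^ e * b) →
        ‖∑' p : ((fun p : O × O => p.1 * p.2) ⁻¹' {h} : Set (O × O)), c₁ p.1.1 * c₂ p.1.2‖ ≤
          C * D₁ * D₂ * nm h ^ (e + δ) * b := fun b hb hb' => by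
      rw [hF, Finset.tsum_subtype' F fun p : O × O => c₁ p.1 * c₂ p.2]
      refine (norm_sum_le _ _).trans ((Finset.sum_le_card_nsmul _ _ (D₁ * D₂ * nm h ^ e * b)
        fun p hp => (norm_mul_le _ _).trans (hb' _ _ (hm p hp))).trans ?_)
      rw [nsmul_eq_mul, Real.rpow_add hp0]
      calc _ ≤ C * nm h ^ δ * (D₁ * D₂ * nm h ^ e * b) := by gcongr
        _ = _ := by ring
    have hx : ∀ x y : O, x * y = h → x ≠ 0 ∧ y ≠ 0 ∧ nm x ^ e ≤ nm h ^ e := fun x y hxy => by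
      have hx0 : x ≠ 0 := left_ne_zero_of_mul (hxy ▸ hh)
      have hy0 : y ≠ 0 := right_ne_zero_of_mul (hxy ▸ hh)
      refine ⟨hx0, hy0, Real.rpow_le_rpow (nm_nonneg x) ?_ he⟩
      rw [← hxy, nm_mul]
      exact le_mul_of_one_le_right (nm_nonneg x) (one_le_nm hy0)
    constructor
    · refine (key 1 zero_le_one fun x y hxy => ?_).trans_eq (mul_one _)
      obtain ⟨hx0, hy0, hxe⟩ := hx x y hxy
      have a1 := (h₁.2 x hx0).1
      have a2 := (h₂.2 y hy0).1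
      rw [Real.rpow_zero, mul_one] at a2
      calc _ ≤ D₁ * nm h ^ e * D₂ := by
            gcongr
            exact a1.trans (by gcongr)
        _ = _ := by ring
    · refine key _ (by positivity) fun x y hxy => ?_
      obtain ⟨hx0, hy0, hxe⟩ := hx x y hxy
      have a1 := (h₁.2 x hx0).2
      have a2 := (h₂.2 y hy0).2
      rw [Real.rpow_zero, mul_one] at a2
      have px := nm_pos hx0
      have py := nm_pos hy0
      calc _ ≤ D₁ * nm h ^ e * (N₁ / nm x) ^ 3 * (D₂ * (N₂ / nm y) ^ 3) := by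
            gcongr
            exact a1.trans (by gcongr)
        _ = _ := by
            rw [show N₁ * N₂ / nm h = N₁ / nm x * (N₂ / nm y) by
              rw [← hxy, nm_mul, div_mul_div_comm]]
            ring
  · have hs : ∀ c : O → ℂ, (Summable fun n => ‖c n‖) → Summable fun n => ‖c n * χ n‖ := fun c hc =>
      hc.of_nonneg_of_le (fun _ => norm_nonneg _) fun n => by
        rw [norm_mul]
        exact mul_le_of_le_one_right (norm_nonneg _) (hχ1 n)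
    have s₁ := hs c₁ (h₁.summable he1)
    have s₂ := hs c₂ (h₂.summable zero_le_one)
    rw [tsum_mul_tsum_of_summable_norm s₁ s₂,
      ← ((summable_mul_of_summable_norm s₁ s₂).hasSum.tsum_fiberwise fun p => p.1 * p.2).tsum_eq]
    refine tsum_congr fun h => ?_
    rw [← tsum_mul_right]
    refine tsum_congr fun p => ?_
    have e1 : χ h = χ p.1.1 * χ p.1.2 := by rw [← hχ, show p.1.1 * p.1.2 = h from p.2]
    rw [e1]
    ring

/-- induction on `r` (`Fin.prod_univ_succ`), `r = 0`: the indicator of `1` -/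
theorem gd_prod {δ : ℝ} (hδ : 0 < δ) (r : ℕ) (hr : r * δ ≤ 1) {D : ℝ} (hD : 0 ≤ D) :
    ∃ C : ℝ, 0 < C ∧ ∀ (N : Fin r → ℝ) (a : Fin r → O → ℂ), (∀ i, 0 < N i ∧ Gd D 0 (N i) (a i)) →
      ∃ c : O → ℂ, Gd C (r * δ) (∏ i, N i) c ∧
        ∀ χ : O → ℂ, χ 1 = 1 → (∀ a b, χ (a * b) = χ a * χ b) → (∀ a, ‖χ a‖ ≤ 1) →
          ∏ i, ∑' n, a i n * χ n = ∑' n, c n * χ n := by
  classical
  induction r with
  | zero =>
    refine ⟨1, one_pos, fun N a _ => ⟨fun n => if n = 1 then 1 else 0, ⟨by simp, fun h hh => ?_⟩,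
      fun χ h1 _ _ => ?_⟩⟩
    · have := nm_pos hh
      by_cases h1 : h = 1
      · simp [h1]
      · simp only [if_neg h1, norm_zero, Fin.prod_univ_zero]
        constructor <;> positivity
    · rw [Fin.prod_univ_zero, tsum_eq_single 1 fun b hb => by simp [hb]]
      simp [h1]
  | succ r ih =>
    push_cast at hr ⊢
    have hr0 : (0 : ℝ) ≤ r * δ := by positivity
    have hr1 : (r : ℝ) * δ ≤ 1 := by linarith
    obtain ⟨C, hC, hI⟩ := ih hr1
    obtain ⟨C', hC', hV⟩ := gd_conv hδ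
    refine ⟨C' * C * (D + 1), by positivity, fun N a ha => ?_⟩
    obtain ⟨c, hc, hχ⟩ := hI (fun i => N i.succ) (fun i => a i.succ) fun i => ha i.succ
    obtain ⟨c', hc', hχ'⟩ := hV C (D + 1) (r * δ) _ (N 0) c (a 0) hC.le (by positivity) hr0 hr1
      (Finset.prod_pos fun i _ => (ha i.succ).1) (ha 0).1 hc
      ((ha 0).2.mono (ha 0).1.le (by positivity) (by linarith) le_rfl)
    refine ⟨c', ?_, fun χ h1 h2 h3 => ?_⟩
    · rw [Fin.prod_univ_succ, mul_comm (N 0), add_one_mul]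
      exact hc'
    · rw [Fin.prod_univ_succ, hχ χ h1 h2 h3, mul_comm, hχ' χ h2 h3]

/-- `norm_LN_le_one`, `norm_LN_le_rpow` with `σ = 3` -/
theorem gd_LN {a : O → ℂ} {D Y : ℝ} (h0 : a 0 = 0) (h : ∀ n, ‖a n‖ ≤ D) (hY : 0 < Y) (t : ℝ) :
    Gd (D * Real.exp 2) 0 Y fun n => a n * LN (1 / 2) Y t (nm n) := by
  have hD : 0 ≤ D := (norm_nonneg _).trans (h 0)
  refine ⟨by simp [h0], fun n hn => ?_⟩
  have hp := nm_pos hn
  rw [Real.rpow_zero, mul_one, norm_mul, mul_assoc]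
  constructor
  · gcongr
    · exact h n
    · exact (norm_LN_le_one _ _ _ _).trans (Real.one_le_exp zero_le_two)
  · gcongr
    · exact h n
    · refine (norm_LN_le_rpow one_half_pos hY hp t 3).trans ?_
      rw [Real.rpow_neg hp.le, Real.rpow_ofNat, Real.rpow_ofNat, mul_assoc, ← div_eq_mul_inv, ← div_pow]
      gcongr
      norm_num

/-- `gd_LN`, `gd_prod` (`δ = ε / (3 (r + 1))`), `Gd.mono`, `ls_gd` (`ε / 3`) -/
theorem ls_prod (h : StLSG) (r : ℕ) {ε : ℝ} (hε : 0 < ε) (hε1 : ε ≤ 1) : ∃ C : ℝ, 0 < C ∧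
    ∀ (K : ℝ) (S : Finset O) (a : O → ℂ) (Y t : Fin r → ℝ), 1 ≤ K → (∀ i, 0 < Y i) →
      (∀ k ∈ S, PSq k ∧ nm k ≤ K) → a 0 = 0 → (∀ n, ‖a n‖ ≤ 9) →
      ∑ k ∈ S, ∏ i, ‖SS (fun n => a n * conj (cb n k)) nm (1 / 2) (Y i) (t i)‖ ^ 2 ≤
        C * (K * ∏ i, Y i) ^ ε * (K + ∏ i, Y i + (K * ∏ i, Y i) ^ (2 / 3 : ℝ)) * ∏ i, Y i := by
  have hδ : 0 < ε / (3 * (r + 1)) := by positivity
  have hr : r * (ε / (3 * (r + 1))) ≤ ε / 3 := by
    rw [mul_div_assoc', div_le_div_iff₀ (by positivity) (by norm_num)]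
    nlinarith
  obtain ⟨C₁, hC₁, h₁⟩ := gd_prod hδ r (by linarith) (D := 9 * Real.exp 2) (by positivity)
  obtain ⟨C₂, hC₂, h₂⟩ := ls_gd h (ε := ε / 3) (by positivity) (by linarith)
  refine ⟨C₂ * C₁ ^ 2, by positivity, fun K S a Y t hK hY hS h0 ha => ?_⟩
  obtain ⟨c, hc, hχ⟩ := h₁ Y (fun i n => a n * LN (1 / 2) (Y i) (t i) (nm n))
    fun i => ⟨hY i, gd_LN h0 ha (hY i) (t i)⟩
  have hP : 0 < ∏ i, Y i := Finset.prod_pos fun i _ => hY i
  have := h₂ K _ C₁ S c hK hP hC₁.le hS (hc.mono hP.le hC₁.le le_rfl hr)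
  rw [show 3 * (ε / 3) = ε by ring] at this
  refine le_of_eq_of_le (Finset.sum_congr rfl fun k hk => ?_) this
  rw [← hχ (fun n => conj (cb n k))
    (by rw [cb_one_left, if_pos (hS k hk).1.1.coprime_three, map_one])
    (fun x y => by rw [cb_mul_left, map_mul]) fun x => by rw [norm_conj]; exact norm_cb_le _ _,
    norm_prod, ← Finset.prod_pow]
  refine Finset.prod_congr rfl fun i _ => ?_
  unfold SS
  congr 2
  exact tsum_congr fun n => mul_right_comm _ _ _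

end Crest.Agent.R12.HK
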