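import Crest.Agent.R12.HK.Refl
import Crest.Agent.R12.HK.Arith
import Crest.Agent.R12.HK.LS

/-! Row 12, block HK: the moment over `k₁` for fixed `ζ, i, k₂, m`. -/

set_option autoImplicit false

namespace Crest.Agent.R12.HK

open Crest.Agent.R17 Complex MeasureTheory Filter Set
open scoped Real Topology ComplexConjugate

/-- `integral_fintype_prod_volume_eq_prod`, `Integrable.fintype_prod`, `integral_finsetSum`, `integral_mono` -/
theorem sum_prod_int {r : ℕ} (S : Finset O) (H : O → Fin r → ℝ → ℝ) (β : Fin 3 → ℝ)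
    (B : Fin 3 → Fin r → ℝ → ℝ) (hH : ∀ k ∈ S, ∀ j, Integrable (H k j))
    (hB : ∀ m j, Integrable (B m j))
    (h : ∀ ξ : Fin r → ℝ, ∑ k ∈ S, ∏ j, H k j (ξ j) ≤ ∑ m, β m * ∏ j, B m j (ξ j)) :
    ∑ k ∈ S, ∏ j, ∫ x, H k j x ≤ ∑ m, β m * ∏ j, ∫ x, B m j x := by
  have h1 : ∀ k ∈ S, Integrable (fun ξ : Fin r → ℝ => ∏ j, H k j (ξ j)) :=
    fun k hk => Integrable.fintype_prod (hH k hk)
  have h2 : ∀ m ∈ (Finset.univ : Finset (Fin 3)),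
      Integrable (fun ξ : Fin r → ℝ => β m * ∏ j, B m j (ξ j)) :=
    fun m _ => (Integrable.fintype_prod (hB m)).const_mul _
  simp only [← integral_fintype_prod_volume_eq_prod, ← integral_const_mul]
  rw [← integral_finsetSum S h1, ← integral_finsetSum _ h2]
  exact integral_mono (integrable_finsetSum S h1) (integrable_finsetSum _ h2) h

theorem cra_exp (κ s ε : ℝ) :
    (Real.exp κ * Real.exp s) ^ ε *
        (Real.exp κ + Real.exp s + (Real.exp κ * Real.exp s) ^ (2 / 3 : ℝ)) =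
      Real.exp ((1 + ε) * κ) * Real.exp ((1 + ε - 1) * s) +
        Real.exp (ε * κ) * Real.exp ((2 + ε - 1) * s) +
        Real.exp ((2 / 3 + ε) * κ) * Real.exp ((5 / 3 + ε - 1) * s) := by
  rw [← Real.exp_add, ← Real.exp_mul, ← Real.exp_mul]
  simp only [mul_add (Real.exp _), ← Real.exp_add]
  congr 1
  · congr 1 <;> congr 1 <;> ring
  · congr 1; ring

theorem cra_prod {r : ℕ} (δ θ : ℝ) (L ξ : Fin r → ℝ) :
    ∏ j, vv δ (L j) (ξ j) * Real.exp (θ * ξ j) =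
      (∏ j, vv δ (L j) (ξ j)) * (Real.exp ((θ - 1) * ∑ j, ξ j) * Real.exp (∑ j, ξ j)) := by
  rw [Finset.prod_mul_distrib, ← Real.exp_sum, ← Real.exp_add, ← Finset.mul_sum]
  congr 2
  ring

theorem cra_int {r : ℕ} {δ θ : ℝ} (hδ : 0 < δ) (h1 : 1 + 2 * δ ≤ θ) (h2 : θ + 2 * δ ≤ 6)
    (L : Fin r → ℝ) : ∏ j, ∫ ξ : ℝ, vv δ (L j) ξ * Real.exp (θ * ξ) ≤
      (2 / δ) ^ r * Real.exp ((θ - 1) * ∑ j, L j) := by
  refine (Finset.prod_le_prod (fun j _ => integral_nonneg fun ξ => ?_)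
    fun j _ => (int_vv hδ h1 h2 (L j)).2).trans_eq ?_
  · exact mul_nonneg (Real.exp_pos _).le (Real.exp_pos _).le
  · rw [Finset.prod_mul_distrib, Finset.prod_const, Finset.card_univ, Fintype.card_fin,
      ← Real.exp_sum, Finset.mul_sum]

/-- `ls_prod`, `sum_prod_int`, `int_vv` with `δ = ε/2`, `θ = 1 + ε, 2 + ε, 5/3 + ε` -/
theorem ls_int (h : StLSG) (r : ℕ) {ε : ℝ} (hε : 0 < ε) (hε1 : ε ≤ 1) : ∃ C : ℝ, 0 < C ∧
    ∀ (K : ℝ) (S : Finset O) (a : O → ℂ) (L t : Fin r → ℝ), 1 ≤ K →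
      (∀ k ∈ S, PSq k ∧ nm k ≤ K) → a 0 = 0 → (∀ n, ‖a n‖ ≤ 9) →
      ∑ k ∈ S, ∏ j, ∫ ξ : ℝ, vv (ε / 2) (L j) ξ *
          ‖SS (fun n => a n * conj (cb n k)) nm (1 / 2) (Real.exp ξ) (t j)‖ ^ 2 ≤
        C * (K * ∏ j, Real.exp (L j)) ^ ε *
          (K + ∏ j, Real.exp (L j) + (K * ∏ j, Real.exp (L j)) ^ (2 / 3 : ℝ)) := by
  obtain ⟨C, hC, H⟩ := ls_prod h r hε hε1
  have hδ : 0 < ε / 2 := half_pos hε
  refine ⟨C * (2 / (ε / 2)) ^ r, by positivity, fun K S a L t hK hS h0 ha => ?_⟩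
  obtain ⟨κ, rfl⟩ : ∃ κ, K = Real.exp κ := ⟨Real.log K, (Real.exp_log (by linarith)).symm⟩
  have i1 := cra_int (θ := 1 + ε) hδ (by linarith) (by linarith) L
  have i2 := cra_int (θ := 2 + ε) hδ (by linarith) (by linarith) L
  have i3 := cra_int (θ := 5 / 3 + ε) hδ (by linarith) (by linarith) L
  have key := sum_prod_int S (fun k j ξ => vv (ε / 2) (L j) ξ *
      ‖SS (fun n => a n * conj (cb n k)) nm (1 / 2) (Real.exp ξ) (t j)‖ ^ 2)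
    ![C * Real.exp ((1 + ε) * κ), C * Real.exp (ε * κ), C * Real.exp ((2 / 3 + ε) * κ)]
    (fun m j ξ => vv (ε / 2) (L j) ξ * Real.exp (![1 + ε, 2 + ε, 5 / 3 + ε] m * ξ)) ?_ ?_ ?_
  · refine key.trans ?_
    rw [← Real.exp_sum, mul_assoc, cra_exp, Fin.sum_univ_three]
    have j1 := mul_le_mul_of_nonneg_left i1 (mul_pos hC (Real.exp_pos ((1 + ε) * κ))).le
    have j2 := mul_le_mul_of_nonneg_left i2 (mul_pos hC (Real.exp_pos (ε * κ))).le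
    have j3 := mul_le_mul_of_nonneg_left i3 (mul_pos hC (Real.exp_pos ((2 / 3 + ε) * κ))).le
    refine (add_le_add (add_le_add j1 j2) j3).trans_eq ?_
    ring
  · intro k _ j
    refine int_vv_SS hδ (by linarith) (adm_bdd (M := 9) (by rw [h0, zero_mul]) fun n => ?_) _ _
    rw [norm_mul, Complex.norm_conj]
    exact (mul_le_of_le_one_right (norm_nonneg _) (norm_cb_le _ _)).trans (ha n)
  · intro m j
    refine (int_vv hδ ?_ ?_ _).1 <;> fin_cases m <;> simp <;> linarith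
  · intro ξ
    have h1 := H (Real.exp κ) S a (fun j => Real.exp (ξ j)) t hK (fun _ => Real.exp_pos _) hS h0 ha
    have hv : 0 ≤ ∏ j, vv (ε / 2) (L j) (ξ j) := Finset.prod_nonneg fun _ _ => (Real.exp_pos _).le
    simp only [cra_prod]
    simp only [Finset.prod_mul_distrib, ← Finset.mul_sum]
    refine (mul_le_mul_of_nonneg_left h1 hv).trans_eq ?_
    rw [← Real.exp_sum, mul_assoc C, cra_exp, Fin.sum_univ_three]
    simp only [Matrix.cons_val_zero, Matrix.cons_val_one, Matrix.cons_val_two, Matrix.head_cons,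
      Matrix.tail_cons]
    ring

theorem cora_nm_nine : nm 9 = 81 := by
  rw [show (9 : O) = lam ^ 4 by linear_combination -(lam ^ 2 - 3) * lam_sq, nm_pow, nm_lam]
  norm_num

theorem cora_row (l : ℤ) {δ : ℝ} (hδ : 0 < δ) (hδ1 : δ ≤ 1) : ∃ C A : ℝ, 0 < C ∧ 0 ≤ A ∧
    ∀ (ζ : O) (i : ℕ) (k₂ : O), IsUnit ζ → PSq k₂ → ∃ a : O → ℂ, a 0 = 0 ∧ (∀ n, ‖a n‖ ≤ 9) ∧
      ∀ (k : O) (X t L : ℝ), PSq k → IsCoprime k k₂ → ¬ Cube (ζ * lam ^ i * k₂ ^ 2 * k) → 0 < X →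
        81 * nm k₂ * nm k / X ≤ Real.exp L →
        ‖PSc l (ζ * lam ^ i * k₂ ^ 2 * k) X t‖ ^ 2 ≤ C * (1 + |t|) ^ A * X * ∫ ξ : ℝ, vv δ L ξ *
          ‖SS (fun n => a n * conj (cb n k)) nm (1 / 2) (Real.exp ξ) (-t)‖ ^ 2 := by
  classical
  obtain ⟨c, A, hC, hA, h⟩ := refl_sq l hδ hδ1
  refine ⟨c, A, hC, hA, fun ζ i k₂ hζ hk₂ => ?_⟩
  have h9 : (9 : O) ≠ 0 := by norm_num
  have hQ : 9 * k₂ ≠ 0 := mul_ne_zero h9 hk₂.ne_zero
  have hs : 0 < √(nm (9 * k₂)) := Real.sqrt_pos.2 (nm_pos hQ)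
  have hP := per_mul (per_unit hζ i) hk₂.1 two_ne_zero
  refine ⟨fun n => if n = 0 then 0 else dual l (9 * k₂) (C.prm (cb (ζ * lam ^ i * k₂ ^ 2))) n,
    if_pos rfl, fun n => ?_, fun k X t L hk hc hn hX hL => ?_⟩
  · beta_reduce
    split_ifs with h0
    · simp
    · rw [dual, norm_mul, norm_zpow, norm_al h0, one_zpow, mul_one, norm_div,
        Complex.norm_of_nonneg hs.le, div_le_iff₀ hs]
      exact norm_FT_two hζ i hk₂ n
  have hc9 : IsCoprime (9 * k₂) k := by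
    refine IsCoprime.mul_left ?_ hc.symm
    rw [show (9 : O) = 3 ^ 2 by norm_num]
    exact hk.1.coprime_three.symm.pow_left
  have hP' := per_mul hP hk.1 one_ne_zero
  obtain ⟨E, hE, hFT⟩ := FT_row hQ hP hk hc9 (j := 1) (by norm_num)
  rw [pow_one] at hP' hFT
  have hw : ζ * lam ^ i * k₂ ^ 2 * k ≠ 0 := mul_ne_zero (mul_ne_zero
    (mul_ne_zero hζ.ne_zero (pow_ne_zero _ lam_ne_zero)) (pow_ne_zero _ hk₂.ne_zero)) hk.ne_zero
  have h0 := FT_zero_row ⟨ζ * lam ^ i * k₂, by ring⟩ hw hn hP'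
  have h1 := h _ _ X t L (mul_ne_zero hQ hk.ne_zero) hP' (prm_zero _) h0 hX
    (by rwa [nm_mul, nm_mul, cora_nm_nine])
  have hsk : ((√(nm k) : ℝ) : ℂ) ≠ 0 := gsa_sqrt_ne hk.ne_zero
  have e : ∀ Y, SS (dual l (9 * k₂ * k) (C.prm (cb (ζ * lam ^ i * k₂ ^ 2 * k)))) nm (1 / 2) Y (-t) =
      E * SS (fun n => (if n = 0 then 0 else dual l (9 * k₂) (C.prm (cb (ζ * lam ^ i * k₂ ^ 2))) n) *
        conj (cb n k)) nm (1 / 2) Y (-t) := fun Y => by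
    rw [SS, SS, ← tsum_mul_left]
    refine tsum_congr fun n => ?_
    split_ifs with hn0
    · rw [hn0, dual, h0]
      simp
    · rw [dual, dual, hFT, gsb_sqrt_mul, pow_one]
      field_simp
  rw [PSc_eq]
  refine h1.trans (mul_le_mul_of_nonneg_left ?_ (by positivity))
  simp only [e, norm_mul, mul_pow, mul_left_comm (vv δ L _)]
  rw [integral_const_mul]
  exact mul_le_of_le_one_left (integral_nonneg fun ξ => mul_nonneg (Real.exp_pos _).le (sq_nonneg _))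
    (pow_le_one₀ (norm_nonneg _) hE)

/-- `PSc_eq`, `refl_sq` with `exp (L j) = 81 N(k₂) K / X j`, `FT_row`, `ls_int` -/
theorem core (h : StLSG) (l : ℤ) (r : ℕ) {ε : ℝ} (hε : 0 < ε) (hε1 : ε ≤ 1) :
    ∃ C A : ℝ, 0 < C ∧ 0 ≤ A ∧ ∀ (ζ : O) (i : ℕ) (k₂ : O) (K : ℝ) (X t : Fin r → ℝ) (S : Finset O),
      IsUnit ζ → PSq k₂ → 1 ≤ K → (∀ j, 0 < X j) →
      (∀ k ∈ S, PSq k ∧ nm k ≤ K ∧ IsCoprime k k₂ ∧ ¬ Cube (ζ * lam ^ i * k₂ ^ 2 * k)) →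
      ∑ k ∈ S, ∏ j, ‖PSc l (ζ * lam ^ i * k₂ ^ 2 * k) (X j) (t j)‖ ^ 2 ≤
        C * (1 + ∑ j, |t j|) ^ A * (∏ j, X j) * (K * ((81 * nm k₂ * K) ^ r / ∏ j, X j)) ^ ε *
          (K + (81 * nm k₂ * K) ^ r / ∏ j, X j +
            (K * ((81 * nm k₂ * K) ^ r / ∏ j, X j)) ^ (2 / 3 : ℝ)) := by
  obtain ⟨C₁, A, hC₁, hA, h₁⟩ := cora_row l (half_pos hε) (by linarith)
  obtain ⟨C₂, hC₂, h₂⟩ := ls_int h r hε hε1
  refine ⟨C₁ ^ r * C₂, r * A, by positivity, by positivity, fun ζ i k₂ K X t S hζ hk₂ hK hX hS => ?_⟩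
  obtain ⟨a, ha0, ha, hrow⟩ := h₁ ζ i k₂ hζ hk₂
  have hn₂ := nm_pos hk₂.ne_zero
  have hpos : ∀ j, 0 < 81 * nm k₂ * K / X j := fun j => by
    have := hX j
    positivity
  have hT : ∀ j, 1 + |t j| ≤ 1 + ∑ j, |t j| := fun j => add_le_add_right
    (Finset.single_le_sum (f := fun j => |t j|) (fun _ _ => abs_nonneg _) (Finset.mem_univ j)) 1
  have hT0 : 0 ≤ 1 + ∑ j, |t j| := add_nonneg zero_le_one (Finset.sum_nonneg fun _ _ => abs_nonneg _)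
  have h3 := h₂ K S a (fun j => Real.log (81 * nm k₂ * K / X j)) (fun j => -t j) hK
    (fun k hk => ⟨(hS k hk).1, (hS k hk).2.1⟩) ha0 ha
  simp only [Real.exp_log (hpos _), Finset.prod_div_distrib, Finset.prod_const, Finset.card_univ,
    Fintype.card_fin] at h3
  have h4 := mul_le_mul_of_nonneg_left h3 (a := C₁ ^ r * (1 + ∑ j, |t j|) ^ (r * A) * ∏ j, X j)
    (mul_nonneg (by positivity) (Finset.prod_nonneg fun j _ => (hX j).le))
  refine le_trans ?_ (h4.trans (le_of_eq (by ring)))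
  rw [Finset.mul_sum]
  refine Finset.sum_le_sum fun k hk => ?_
  obtain ⟨k1, k2, k3, k4⟩ := hS k hk
  have e : C₁ ^ r * (1 + ∑ j, |t j|) ^ (r * A) = ∏ _j : Fin r, C₁ * (1 + ∑ j, |t j|) ^ A := by
    rw [Finset.prod_const, Finset.card_univ, Fintype.card_fin, mul_pow, mul_comm (r : ℝ),
      Real.rpow_mul hT0, Real.rpow_natCast]
  rw [e, ← Finset.prod_mul_distrib, ← Finset.prod_mul_distrib]
  refine Finset.prod_le_prod (fun _ _ => sq_nonneg _) fun j _ => ?_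
  refine (hrow k (X j) (t j) (Real.log (81 * nm k₂ * K / X j)) k1 k3 k4 (hX j) ?_).trans ?_
  · rw [Real.exp_log (hpos j)]
    have := hX j
    gcongr
  · refine mul_le_mul_of_nonneg_right (mul_le_mul_of_nonneg_right (mul_le_mul_of_nonneg_left
      (Real.rpow_le_rpow (by positivity) (hT j) hA) hC₁.le) (hX j).le)
      (integral_nonneg fun ξ => mul_nonneg (Real.exp_pos _).le (sq_nonneg _))

private theorem cmk_num {x P K W N ε : ℝ} (hx : 0 < x) (hxP : x ≤ P) (hPx : P ≤ x * N)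
    (hK : 0 < K) (hW : 0 < W) (hε : 0 < ε) :
    x * (K * (W / x)) ^ ε * (K + W / x + (K * (W / x)) ^ (2 / 3 : ℝ)) ≤
      (K * (W * N / P)) ^ ε * (P * K + W + P ^ (1 / 3 : ℝ) * (K * W) ^ (2 / 3 : ℝ)) := by
  have hP : 0 < P := hx.trans_le hxP
  have h1 : (K * (W / x)) ^ ε ≤ (K * (W * N / P)) ^ ε := by
    apply Real.rpow_le_rpow (by positivity) _ hε.le
    apply mul_le_mul_of_nonneg_left _ hK.le
    rw [div_le_div_iff₀ hx hP]
    nlinarith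
  have h2 : x * (K * (W / x)) ^ (2 / 3 : ℝ) = x ^ (1 / 3 : ℝ) * (K * W) ^ (2 / 3 : ℝ) := by
    have e1 : K * (W / x) = K * W / x := by ring
    rw [e1, Real.div_rpow (by positivity) hx.le]
    have e2 : x = x ^ (1 / 3 : ℝ) * x ^ (2 / 3 : ℝ) := by
      rw [← Real.rpow_add hx]; norm_num
    have e3 : 0 < x ^ (2 / 3 : ℝ) := Real.rpow_pos_of_pos hx _
    calc x * ((K * W) ^ (2 / 3 : ℝ) / x ^ (2 / 3 : ℝ))
        = (x ^ (1 / 3 : ℝ) * x ^ (2 / 3 : ℝ)) * ((K * W) ^ (2 / 3 : ℝ) / x ^ (2 / 3 : ℝ)) := by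
          rw [← e2]
      _ = _ := by field_simp
  have h3 : x ^ (1 / 3 : ℝ) ≤ P ^ (1 / 3 : ℝ) := Real.rpow_le_rpow hx.le hxP (by norm_num)
  have h4 : x * (K + W / x + (K * (W / x)) ^ (2 / 3 : ℝ)) ≤
      P * K + W + P ^ (1 / 3 : ℝ) * (K * W) ^ (2 / 3 : ℝ) := by
    have e : x * (K + W / x + (K * (W / x)) ^ (2 / 3 : ℝ)) =
        x * K + W + x * (K * (W / x)) ^ (2 / 3 : ℝ) := by field_simp
    rw [e, h2]
    have : 0 ≤ (K * W) ^ (2 / 3 : ℝ) := by positivity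
    have a1 := mul_le_mul_of_nonneg_right hxP hK.le
    have a2 := mul_le_mul_of_nonneg_right h3 this
    linarith
  calc x * (K * (W / x)) ^ ε * (K + W / x + (K * (W / x)) ^ (2 / 3 : ℝ))
      = (K * (W / x)) ^ ε * (x * (K + W / x + (K * (W / x)) ^ (2 / 3 : ℝ))) := by ring
    _ ≤ _ := mul_le_mul h1 h4 (by positivity) (le_trans (by positivity) h1)


/-- `PSc_mask` in each factor, `Finset.prod_univ_sum` (`Fintype.piFinset fun _ => pdiv m`), Cauchy–Schwarz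
(`sq_sum_le_card_mul_sum_sq`), `core` with `X j = M j / N(d j)`: `P / N(m)^r ≤ ∏ X j ≤ P`, and
`x (K W / x)^{2/3} = x^{1/3} (K W)^{2/3}`. -/
theorem core_mask (h : StLSG) (l : ℤ) (r : ℕ) {ε : ℝ} (hε : 0 < ε) (hε1 : ε ≤ 1) :
    ∃ C A : ℝ, 0 < C ∧ 0 ≤ A ∧
      ∀ (ζ : O) (i : ℕ) (k₂ m : O) (K : ℝ) (M t : Fin r → ℝ) (S : Finset O),
      IsUnit ζ → PSq k₂ → Prim m → 1 ≤ K → (∀ j, 0 < M j) →
      (∀ k ∈ S, PSq k ∧ nm k ≤ K ∧ IsCoprime k k₂ ∧ ¬ Cube (ζ * lam ^ i * k₂ ^ 2 * k)) →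
      ∑ k ∈ S, ‖∏ j, PSc l (ζ * lam ^ i * k₂ ^ 2 * k * m ^ 3) (M j) (t j)‖ ^ 2 ≤
        C * (1 + ∑ j, |t j|) ^ A * dn m ^ (2 * r) *
          (K * ((81 * nm k₂ * K) ^ r * nm m ^ r / ∏ j, M j)) ^ ε *
          ((∏ j, M j) * K + (81 * nm k₂ * K) ^ r +
            (∏ j, M j) ^ (1 / 3 : ℝ) * (K * (81 * nm k₂ * K) ^ r) ^ (2 / 3 : ℝ)) := by
  classical
  obtain ⟨C, A, hC, hA, H⟩ := core h l r hε hε1
  refine ⟨C, A, hC, hA, ?_⟩
  intro ζ i k₂ m K M t S hζ hk₂ hm hK hM hS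
  have hm0 := hm.ne_zero
  have hK0 : 0 < K := by linarith
  have hk0 : 0 < nm k₂ := nm_pos hk₂.1.ne_zero
  set T := Fintype.piFinset (fun _ : Fin r => pdiv m) with hT
  have hcard : (T.card : ℝ) = dn m ^ r := by
    rw [hT, Fintype.card_piFinset]
    simp [dn]
  set B : ℝ := C * (1 + ∑ j, |t j|) ^ A *
    ((K * ((81 * nm k₂ * K) ^ r * nm m ^ r / ∏ j, M j)) ^ ε *
      ((∏ j, M j) * K + (81 * nm k₂ * K) ^ r +
        (∏ j, M j) ^ (1 / 3 : ℝ) * (K * (81 * nm k₂ * K) ^ r) ^ (2 / 3 : ℝ))) with hB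
  have h1 : ∀ k ∈ S, ‖∏ j, PSc l (ζ * lam ^ i * k₂ ^ 2 * k * m ^ 3) (M j) (t j)‖ ^ 2 ≤
      dn m ^ r * ∑ f ∈ T, ∏ j, ‖PSc l (ζ * lam ^ i * k₂ ^ 2 * k) (M j / nm (f j)) (t j)‖ ^ 2 := by
    intro k _
    have a1 : ‖∏ j, PSc l (ζ * lam ^ i * k₂ ^ 2 * k * m ^ 3) (M j) (t j)‖ ≤
        ∑ f ∈ T, ∏ j, ‖PSc l (ζ * lam ^ i * k₂ ^ 2 * k) (M j / nm (f j)) (t j)‖ := by
      rw [norm_prod, hT, ← Finset.prod_univ_sum (fun _ : Fin r => pdiv m)
        (fun j d => ‖PSc l (ζ * lam ^ i * k₂ ^ 2 * k) (M j / nm d) (t j)‖)]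
      exact Finset.prod_le_prod (fun j _ => norm_nonneg _) fun j _ => PSc_mask l _ hm (hM j) (t j)
    calc _ ≤ (∑ f ∈ T, ∏ j, ‖PSc l (ζ * lam ^ i * k₂ ^ 2 * k) (M j / nm (f j)) (t j)‖) ^ 2 :=
          pow_le_pow_left₀ (norm_nonneg _) a1 2
      _ ≤ T.card * ∑ f ∈ T,
            (∏ j, ‖PSc l (ζ * lam ^ i * k₂ ^ 2 * k) (M j / nm (f j)) (t j)‖) ^ 2 :=
          sq_sum_le_card_mul_sum_sq
      _ = _ := by
          rw [hcard]
          congr 1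
          exact Finset.sum_congr rfl fun f _ => (Finset.prod_pow _ _ _).symm
  have h2 : ∀ f ∈ T, ∑ k ∈ S,
      ∏ j, ‖PSc l (ζ * lam ^ i * k₂ ^ 2 * k) (M j / nm (f j)) (t j)‖ ^ 2 ≤ B := by
    intro f hf
    have hfj : ∀ j, Prim (f j) ∧ f j ∣ m := fun j =>
      pra_of_mem_pdiv (Fintype.mem_piFinset.1 hf j)
    have hf1 : ∀ j, 1 ≤ nm (f j) := fun j => one_le_nm (hfj j).1.ne_zero
    have hf2 : ∀ j, nm (f j) ≤ nm m := fun j => nm_le_of_dvd (hfj j).2 hm0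
    have hX : ∀ j, 0 < M j / nm (f j) := fun j => div_pos (hM j) (by linarith [hf1 j])
    refine (H ζ i k₂ K (fun j => M j / nm (f j)) t S hζ hk₂ hK hX hS).trans ?_
    have hx : 0 < ∏ j, M j / nm (f j) := Finset.prod_pos fun j _ => hX j
    have hxP : ∏ j, M j / nm (f j) ≤ ∏ j, M j :=
      Finset.prod_le_prod (fun j _ => (hX j).le) fun j _ => div_le_self (hM j).le (hf1 j)
    have hPx : ∏ j, M j ≤ (∏ j, M j / nm (f j)) * nm m ^ r := by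
      have : nm m ^ r = ∏ _j : Fin r, nm m := by simp
      rw [this, ← Finset.prod_mul_distrib]
      refine Finset.prod_le_prod (fun j _ => (hM j).le) fun j _ => ?_
      have h0 : 0 < nm (f j) := by linarith [hf1 j]
      rw [div_mul_eq_mul_div, le_div_iff₀ h0]
      exact mul_le_mul_of_nonneg_left (hf2 j) (hM j).le
    have := cmk_num (W := (81 * nm k₂ * K) ^ r) hx hxP hPx hK0 (by positivity) hε
    have hc : 0 ≤ C * (1 + ∑ j, |t j|) ^ A := by positivity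
    calc _ = C * (1 + ∑ j, |t j|) ^ A * ((∏ j, M j / nm (f j)) *
          (K * ((81 * nm k₂ * K) ^ r / ∏ j, M j / nm (f j))) ^ ε *
          (K + (81 * nm k₂ * K) ^ r / (∏ j, M j / nm (f j)) +
            (K * ((81 * nm k₂ * K) ^ r / ∏ j, M j / nm (f j))) ^ (2 / 3 : ℝ))) := by ring
      _ ≤ B := mul_le_mul_of_nonneg_left this hc
  have hd : 0 ≤ dn m ^ r := pow_nonneg (dn_nonneg m) r
  calc _ ≤ ∑ k ∈ S, dn m ^ r * ∑ f ∈ T,
        ∏ j, ‖PSc l (ζ * lam ^ i * k₂ ^ 2 * k) (M j / nm (f j)) (t j)‖ ^ 2 :=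
        Finset.sum_le_sum h1
    _ = dn m ^ r * ∑ f ∈ T, ∑ k ∈ S,
        ∏ j, ‖PSc l (ζ * lam ^ i * k₂ ^ 2 * k) (M j / nm (f j)) (t j)‖ ^ 2 := by
        rw [← Finset.mul_sum, Finset.sum_comm]
    _ ≤ dn m ^ r * ∑ _f ∈ T, B := mul_le_mul_of_nonneg_left (Finset.sum_le_sum h2) hd
    _ = _ := by
        rw [Finset.sum_const, nsmul_eq_mul, hcard, hB, two_mul, pow_add]
        ring

end Crest.Agent.R12.HK
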