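import Crest.Agent.R12.Base.All
import Crest.Agent.R17.C.All
import Crest.Agent.R17.D.Pois

/-!
Row 12, block HK (`StLSG → StMom`, owner helper63): definitions and overview.
A row is `k = ζ λ^i k₂² k₁ m³`.  `Arith`: remove `m` (`PSc_mask`); `C.prm (cb (w k₁))` is periodic modulo
`Q k₁` (`w = ζ λ^i k₂²`, `Q = 9 k₂`) and its finite Fourier transform is `E √N(k₁) · FT(h) · conj (h/k₁)`.
`FE`: Hecke functional equation with the angle `al ^ l`.  `Refl`: a smooth sum of length `X` is a
superposition of dual sums of length `e^ξ` with a weight `vv δ L ξ` that does not depend on the row.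
`LS`: the large sieve for products of dual sums.  `Core`, `Main`: assembly.
-/

set_option autoImplicit false

namespace Crest.Agent.R12.HK

open Crest.Agent.R17 Complex MeasureTheory Filter Set
open scoped Real Topology ComplexConjugate

/-- theta series with a harmonic polynomial -/
noncomputable def thl (b : Bool) (j : ℕ) (Ψ : O → ℂ) (t : ℝ) : ℂ :=
  ∑' n : O, Ψ n * D.pw b (sg n) ^ j * (Real.exp (-(2 * π / √3 * nm n * t)) : ℝ)

/-- the Gamma ratio of the functional equation with angle `± j` -/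
noncomputable def Rl (j : ℕ) (s : ℂ) : ℂ := gK (s + j / 2) * (gK (1 - s + j / 2))⁻¹

/-- the dual coefficients -/
noncomputable def dual (l : ℤ) (Q : O) (Ψ : O → ℂ) (h : O) : ℂ :=
  FT Q Ψ h / (√(nm Q) : ℝ) * al h ^ (-l)

/-- the weight of the dual sums -/
noncomputable def vv (δ L ξ : ℝ) : ℝ := Real.exp (-ξ - 5 * max (ξ - L) 0 + δ * |ξ - L|)

/-- coefficients of essential length `N` -/
def Gd (D e N : ℝ) (c : O → ℂ) : Prop :=
  c 0 = 0 ∧ ∀ h, h ≠ 0 → ‖c h‖ ≤ D * nm h ^ e ∧ ‖c h‖ ≤ D * nm h ^ e * (N / nm h) ^ 3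

end Crest.Agent.R12.HK
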