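import Crest.Agent.R12.HK.Defs
import Crest.Agent.R17.D.FE

/-! Row 12, block HK: the Hecke functional equation with an angle (pattern: `R17/C/Theta.lean`). -/

set_option autoImplicit false

namespace Crest.Agent.R12.HK

open Crest.Agent.R17 Complex MeasureTheory Filter Set
open scoped Real Topology ComplexConjugate

variable {Q : O} {Ψ : O → ℂ} {M : ℝ}

/-- `tsum_eq_rsum` modulo `Q`; for `n = y + Q m` put `z = 3 sg y / sg Q`, so `sg n = sg Q (z + 3 sg m) / 3`;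
`D.pois b j` with `v = 1`, `T = 2π/√3 · t · nm Q / 9` (then `k0 / T = (t nm Q)⁻¹`,
`bt / T = 2π/√3 · (t nm Q)⁻¹`, `eC (sg h z / 3) = eQ (h y) Q`, `qw b h = ± 3 k0 pw (!b) (sg h)`);
swap the finite sum with the series (`rsum_eq_sum`, `Summable.tsum_finsetSum`, `D.qw_summable`).
Compare the proof of `R17.poisson`. -/
theorem thl_FE (hQ : Q ≠ 0) (h : Per Q Ψ) (b : Bool) (j : ℕ) {t : ℝ} (ht : 0 < t) :
    thl b j Ψ t = ((if b then 1 else -1) * D.pw b (sg Q)) ^ j * (((t * nm Q)⁻¹ : ℝ) : ℂ) ^ (j + 1) *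
      thl (!b) j (FT Q Ψ) (t * nm Q)⁻¹ := by
  obtain ⟨B, hB⟩ := h.bdd hQ
  have hN := nm_pos hQ
  have hsQ : sg Q ≠ 0 := fun h => hQ (sg_eq_zero.1 h)
  have hk := D.k0_pos
  have h3 : (0 : ℝ) < √3 := by positivity
  have h3' : √3 ^ 2 = (3 : ℝ) := Real.sq_sqrt (by norm_num)
  have hs : ∀ {Φ : O → ℂ}, (∀ n, ‖Φ n‖ ≤ B) → ∀ (b : Bool) {u : ℝ}, 0 < u → Summable fun n : O =>
      Φ n * D.pw b (sg n) ^ j * (Real.exp (-(2 * π / √3 * nm n * u)) : ℝ) := fun hΦ b u hu => by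
    refine Summable.of_norm_bounded ((D.pois_summable j (A := 2 * π / √3 * u / 9) (by positivity)
      0).mul_left (B / 3 ^ j)) fun n => ?_
    rw [norm_mul, norm_mul, norm_pow, D.pa_norm_pw, Complex.norm_real,
      Real.norm_of_nonneg (Real.exp_pos _).le, zero_add, norm_mul, Complex.norm_ofNat, nm_eq,
      show 2 * π / √3 * u / 9 * (3 * ‖sg n‖) ^ 2 = 2 * π / √3 * ‖sg n‖ ^ 2 * u by ring, mul_pow,
      ← mul_assoc, ← mul_assoc, div_mul_cancel₀ _ (by positivity)]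
    gcongr
    exact hΦ n
  have hT : 0 < D.k0 * (t * nm Q) := by positivity
  have h1 : ∀ y : O, ∑' k, Ψ (y + Q * k) * D.pw b (sg (y + Q * k)) ^ j *
      (Real.exp (-(2 * π / √3 * nm (y + Q * k) * t)) : ℝ) =
      ((if b then 1 else -1) * D.pw b (sg Q)) ^ j * (((t * nm Q)⁻¹ : ℝ) : ℂ) ^ (j + 1) *
        ∑' m : O, Ψ y * eQ (m * y) Q * D.pw (!b) (sg m) ^ j *
          (Real.exp (-(2 * π / √3 * nm m * (t * nm Q)⁻¹)) : ℝ) := fun y => by
    have e : ∀ k : O, sg (y + Q * k) = sg Q / 3 * (3 * sg y / sg Q + 3 * sg k) := fun k => by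
      rw [map_add, map_mul]
      field_simp
    have h2 : ∀ k, Ψ (y + Q * k) * D.pw b (sg (y + Q * k)) ^ j *
        (Real.exp (-(2 * π / √3 * nm (y + Q * k) * t)) : ℝ) =
        Ψ y * (D.pw b (sg Q) / (3 * (D.k0 * (t * nm Q) : ℝ))) ^ j *
          (((D.k0 * (t * nm Q) / 1 : ℝ) * D.pw b (3 * sg y / sg Q + 3 * sg k)) ^ j *
            (Real.exp (-(D.k0 * (t * nm Q) * ‖3 * sg y / sg Q + 3 * sg k‖ ^ 2 / 1)) : ℂ)) := fun k => by
      have hT' : ((D.k0 * (t * nm Q) : ℝ) : ℂ) ≠ 0 := ofReal_ne_zero.2 hT.ne'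
      rw [h (y + Q * k) y ⟨k, by ring⟩, ← mul_assoc, mul_assoc (Ψ y) (_ ^ j) (_ ^ j), ← mul_pow,
        nm_eq (y + Q * k), e, div_one, div_one]
      congr 4
      · generalize (3 * sg y / sg Q + 3 * sg k) = w, ((D.k0 * (t * nm Q) : ℝ) : ℂ) = c at *
        cases b <;> simp [D.pw, map_ofNat] <;> field_simp
      · rw [norm_mul, norm_div, mul_pow, div_pow, ← nm_eq, Complex.norm_ofNat, D.k0]
        ring
    simp_rw [h2]
    rw [tsum_mul_left, D.pois b j hT one_pos, ← tsum_mul_left, ← tsum_mul_left, ← tsum_mul_left]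
    refine tsum_congr fun m => ?_
    have e1 : eC (sg m * (3 * sg y / sg Q) / 3) = eQ (m * y) Q := by
      rw [eQ, map_mul]
      congr 1
      ring
    have e2 : 1 * (D.bt * nm m / (D.k0 * (t * nm Q))) = 2 * π / √3 * nm m * (t * nm Q)⁻¹ := by
      rw [D.bt, D.k0]
      field_simp
      rw [h3']
      ring
    have e3 : D.k0 * 1 / (D.k0 * (t * nm Q)) = (t * nm Q)⁻¹ := by field_simp
    have e4 : D.pw b (sg Q) / (3 * (D.k0 * (t * nm Q) : ℝ)) * D.qw b m =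
        (if b then 1 else -1) * D.pw b (sg Q) * (((t * nm Q)⁻¹ : ℝ) : ℂ) * D.pw (!b) (sg m) := by
      have a1 : (D.k0 : ℂ) ≠ 0 := ofReal_ne_zero.2 hk.ne'
      have a2 : ((t * nm Q : ℝ) : ℂ) ≠ 0 := ofReal_ne_zero.2 (by positivity)
      rw [ofReal_mul, ofReal_inv]
      generalize ((t * nm Q : ℝ) : ℂ) = c at *
      cases b <;> simp [D.pw, D.qw] <;> field_simp
    rw [e1, e2, e3]
    have e5 := congrArg (· ^ j) e4
    simp only [mul_pow] at e5 ⊢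
    linear_combination (Ψ y * eQ (m * y) Q * (((t * nm Q)⁻¹ : ℝ) : ℂ) *
      (Real.exp (-(2 * π / √3 * nm m * (t * nm Q)⁻¹)) : ℝ)) * e5
  rw [thl, tsum_eq_rsum hQ (hs hB b ht), rsum_eq_sum hQ]
  simp_rw [h1]
  rw [← Finset.mul_sum, ← Summable.tsum_finsetSum, thl]
  · congr 2
    ext m
    rw [FT, rsum_eq_sum hQ, Finset.sum_mul, Finset.sum_mul]
  · exact fun y _ => hs (fun m => by rw [norm_mul, norm_eQ, mul_one]; exact hB y) _ (by positivity)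

theorem feb_gw (t : ℝ) (n : O) : Real.exp (-(2 * π / √3 * nm n * t)) = gw t⁻¹ n := by
  rw [← C.tha_gw]
  congr 2
  ring

theorem feb_norm_pw (b : Bool) (j : ℕ) (n : O) :
    ‖D.pw b (sg n) ^ j‖ = nm n ^ ((j : ℝ) / 2) := by
  rw [norm_pow, D.pa_norm_pw, norm_sg, Real.sqrt_eq_rpow, ← Real.rpow_natCast,
    ← Real.rpow_mul (nm_nonneg n)]
  congr 1
  ring

theorem feb_norm_a (h : ∀ n, ‖Ψ n‖ ≤ M) (b : Bool) (j : ℕ) (n : O) :
    ‖Ψ n * D.pw b (sg n) ^ j‖ ≤ M * nm n ^ ((j : ℝ) / 2) := by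
  rw [norm_mul, feb_norm_pw]
  exact mul_le_mul_of_nonneg_right (h n) (Real.rpow_nonneg (nm_nonneg n) _)

theorem feb_norm_le (h : ∀ n, ‖Ψ n‖ ≤ M) (b : Bool) (j : ℕ) (n : O) {x y : ℝ} (hx : 0 ≤ x)
    (hxy : x ≤ y) : ‖Ψ n * D.pw b (sg n) ^ j * (x : ℂ)‖ ≤ M * (nm n ^ ((j : ℝ) / 2) * y) := by
  rw [norm_mul, Complex.norm_real, Real.norm_of_nonneg hx, ← mul_assoc]
  exact mul_le_mul (feb_norm_a h b j n) hxy hx ((norm_nonneg _).trans (feb_norm_a h b j n))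

theorem feb_summable (h : ∀ n, ‖Ψ n‖ ≤ M) (b : Bool) (j : ℕ) {t : ℝ} (ht : 0 < t) :
    Summable fun n : O =>
      Ψ n * D.pw b (sg n) ^ j * (Real.exp (-(2 * π / √3 * nm n * t)) : ℝ) := by
  refine Summable.of_norm_bounded
    ((summable_rpow_mul_gw (inv_pos.2 ht) ((j : ℝ) / 2)).mul_left M) fun n => ?_
  rw [feb_gw]
  exact feb_norm_le h b j n (gw_pos _ _).le le_rfl

/-- `continuousOn_tsum` on `Ioi (t₀/2)`, `summable_rpow_mul_gw` (see `C.continuousOn_th`) -/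
theorem thl_cont (h : ∀ n, ‖Ψ n‖ ≤ M) (b : Bool) (j : ℕ) : ContinuousOn (thl b j Ψ) (Ioi 0) := by
  intro t ht
  have ht : 0 < t := ht
  have h2 : 0 < t / 2 := half_pos ht
  have hc : ContinuousOn (thl b j Ψ) (Ici (t / 2)) := by
    refine continuousOn_tsum (u := fun n => M * (nm n ^ ((j : ℝ) / 2) * gw (t / 2)⁻¹ n))
      (fun n => ?_) ((summable_rpow_mul_gw (inv_pos.2 h2) _).mul_left M) fun n x hx => ?_
    · fun_prop
    · rw [feb_gw]
      have hx : t / 2 ≤ x := hx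
      exact feb_norm_le h b j n (gw_pos _ _).le
        (gw_mono (inv_pos.2 (h2.trans_le hx)) (inv_anti₀ h2 hx) n)
  exact (hc.continuousAt (Ici_mem_nhds (half_lt_self ht))).continuousWithinAt

/-- `N(n) ≥ 1` for `n ≠ 0`: `exp (-c N t) ≤ exp (-c (t - 1)) exp (-c N)` for `t ≥ 1` (see `C.th_decay`) -/
theorem thl_decay (h : ∀ n, ‖Ψ n‖ ≤ M) (h0 : Ψ 0 = 0) (b : Bool) (j : ℕ) (A : ℝ) :
    thl b j Ψ =O[atTop] fun v : ℝ => v ^ (-A) := by
  set κ : ℝ := 2 * π / √3 with hκ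
  have hκ0 : 0 < κ := by positivity
  have hs := (summable_rpow_mul_gw (inv_pos.2 one_pos) ((j : ℝ) / 2)).mul_left M
  refine Asymptotics.IsBigO.trans ?_ (isLittleO_exp_neg_mul_rpow_atTop hκ0 (-A)).isBigO
  refine Asymptotics.IsBigO.of_bound
    ((∑' n : O, M * (nm n ^ ((j : ℝ) / 2) * gw (1 : ℝ)⁻¹ n)) * Real.exp κ) ?_
  filter_upwards [eventually_ge_atTop 1] with t ht
  rw [Real.norm_of_nonneg (Real.exp_pos _).le, mul_assoc]
  refine tsum_of_norm_bounded (hs.hasSum.mul_right _) fun n => ?_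
  by_cases hn : n = 0
  · have h1 := (norm_nonneg _).trans (h 0)
    have h2 := gw_pos (1 : ℝ)⁻¹ n
    have h3 := Real.rpow_nonneg (nm_nonneg n) ((j : ℝ) / 2)
    have e : Ψ n = 0 := by rw [hn, h0]
    rw [e, zero_mul, zero_mul, norm_zero]
    positivity
  · rw [mul_assoc M, mul_assoc (nm n ^ ((j : ℝ) / 2))]
    refine feb_norm_le h b j n (Real.exp_pos _).le ?_
    rw [← feb_gw, ← Real.exp_add, ← Real.exp_add, Real.exp_le_exp, ← hκ]
    have := mul_nonneg hκ0.le (mul_nonneg (sub_nonneg.2 (one_le_nm hn)) (sub_nonneg.2 ht))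
    nlinarith

/-- `hasSum_mellin` (see `C.mellin_th`) -/
theorem thl_mellin (h : ∀ n, ‖Ψ n‖ ≤ M) (h0 : Ψ 0 = 0) (b : Bool) (j : ℕ) {w : ℂ}
    (hw : 1 + (j : ℝ) / 2 < w.re) :
    mellin (thl b j Ψ) w = gK w * ∑' n : O, Ψ n * D.pw b (sg n) ^ j * (nm n : ℂ) ^ (-w) := by
  have : Countable O := crd.surjective.countable
  set κ : ℝ := 2 * π / √3 with hκ
  have hκ0 : 0 < κ := by positivity
  have hj : (0 : ℝ) ≤ (j : ℝ) / 2 := by positivity
  have hM := (norm_nonneg _).trans (h 0)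
  have key := hasSum_mellin (a := fun n : O => Ψ n * D.pw b (sg n) ^ j)
    (p := fun n => κ * nm n) (F := thl b j Ψ) (s := w)
    (fun n => by
      by_cases hn : n = 0
      · exact Or.inl (by rw [hn, h0, zero_mul])
      · exact Or.inr (mul_pos hκ0 (nm_pos hn)))
    (by linarith)
    (fun t ht => by
      have ht : 0 < t := ht
      have := (feb_summable h b j ht).hasSum
      simpa only [neg_mul, hκ, thl] using this)
    (by
      refine Summable.of_nonneg_of_le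
        (fun n => div_nonneg (norm_nonneg _)
          (Real.rpow_nonneg (mul_nonneg hκ0.le (nm_nonneg n)) _)) (fun n => ?_)
        ((summable_nm_rpow (σ := w.re - j / 2) (by linarith)).mul_left (M * κ ^ (-w.re)))
      by_cases hn : n = 0
      · have h3 := Real.rpow_nonneg (nm_nonneg n) (-(w.re - j / 2))
        have e : Ψ n = 0 := by rw [hn, h0]
        rw [e, zero_mul, norm_zero, zero_div]
        positivity
      have hp := nm_pos hn
      rw [Real.mul_rpow hκ0.le hp.le, div_le_iff₀ (by positivity)]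
      refine (feb_norm_a h b j n).trans (le_of_eq ?_)
      rw [neg_sub, Real.rpow_sub hp, Real.rpow_neg hκ0.le]
      have p1 := Real.rpow_pos_of_pos hκ0 w.re
      have p2 := Real.rpow_pos_of_pos hp w.re
      field_simp)
  rw [← key.tsum_eq, ← tsum_mul_left]
  congr 1
  funext n
  rw [gK, ← hκ, ofReal_mul, mul_cpow_ofReal_nonneg hκ0.le (nm_nonneg n), cpow_neg, cpow_neg,
    div_eq_mul_inv, mul_inv]
  ring

theorem fec_zero {f g : ℝ → ℂ} (dg : ∀ A : ℝ, g =O[atTop] fun v : ℝ => v ^ (-A))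
    {N : ℝ} (hN : 0 < N) (c : ℂ) (κ : ℕ)
    (h : ∀ t : ℝ, 0 < t → f t = c * (((t * N)⁻¹ : ℝ) : ℂ) ^ κ * g (t * N)⁻¹) (A : ℝ) :
    f =O[𝓝[>] 0] fun v : ℝ => v ^ (-A) := by
  have h1 : Tendsto (fun t : ℝ => (t * N)⁻¹) (𝓝[>] 0) atTop := by
    simp only [mul_inv]
    exact tendsto_inv_nhdsGT_zero.atTop_mul_const (inv_pos.2 hN)
  obtain ⟨C, hC⟩ := ((dg (κ - A)).comp_tendsto h1).bound
  refine Asymptotics.IsBigO.of_bound (‖c‖ * C * N ^ (-A)) ?_
  filter_upwards [hC, self_mem_nhdsWithin] with t h2 ht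
  have ht' : (0 : ℝ) < t := ht
  have hu : 0 < (t * N)⁻¹ := by positivity
  simp only [Function.comp] at h2
  rw [Real.norm_of_nonneg (by positivity)] at h2
  rw [h t ht', norm_mul, norm_mul, norm_pow, norm_real, Real.norm_of_nonneg hu.le,
    Real.norm_of_nonneg (by positivity)]
  refine (mul_le_mul_of_nonneg_left h2 (by positivity)).trans (le_of_eq ?_)
  have e1 : (t * N)⁻¹ ^ κ * (t * N)⁻¹ ^ (-((κ : ℝ) - A)) = t ^ (-A) * N ^ (-A) := by
    rw [← Real.rpow_natCast, ← Real.rpow_add hu, Real.inv_rpow (by positivity),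
      ← Real.rpow_neg (by positivity), ← Real.mul_rpow ht'.le hN.le]
    congr 1
    ring
  linear_combination (‖c‖ * C) * e1

/-- compare `D.mellin_FE` (`D.fea_entBdd` at `s / 2`, `D.fea_zero`, `mellin_comp_inv`,
`mellin_comp_mul_left`, `mellin_cpow_smul`) -/
theorem mel_FE {f g : ℝ → ℂ} (hf : ContinuousOn f (Ioi 0))
    (df : ∀ A : ℝ, f =O[atTop] fun v : ℝ => v ^ (-A)) (dg : ∀ A : ℝ, g =O[atTop] fun v : ℝ => v ^ (-A))
    {N : ℝ} (hN : 0 < N) (c : ℂ) (κ : ℕ)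
    (h : ∀ t : ℝ, 0 < t → f t = c * (((t * N)⁻¹ : ℝ) : ℂ) ^ κ * g (t * N)⁻¹) :
    EntBdd (mellin f) ∧ ∀ w : ℂ, mellin f w = c * (N : ℂ) ^ (-w) * mellin g (κ - w) := by
  refine ⟨?_, fun w => ?_⟩
  · obtain ⟨h1, h2⟩ := D.fea_entBdd hf df (fec_zero dg hN c κ h)
    have e : mellin f = fun s => (fun s => mellin f (2 * s)) (s / 2) := by
      funext s
      congr 1
      ring
    refine ⟨?_, fun σ₁ σ₂ => ?_⟩
    · rw [e]
      exact h1.comp (by fun_prop)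
    · obtain ⟨B, hB⟩ := h2 (σ₁ / 2) (σ₂ / 2)
      refine ⟨B, fun s a1 a2 => ?_⟩
      have e2 : (s / 2).re = s.re / 2 := by simp
      have := hB (s / 2) (by rw [e2]; linarith) (by rw [e2]; linarith)
      rw [e]
      exact this
  · have h1 := mellin_comp_mul_left (fun t : ℝ => (fun u : ℝ => (u : ℂ) ^ (κ : ℂ) • g u) t⁻¹) w hN
    rw [mellin_comp_inv (fun u : ℝ => (u : ℂ) ^ (κ : ℂ) • g u), mellin_cpow_smul] at h1
    have h2 : mellin f w = mellin (fun t : ℝ => c •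
        (fun t : ℝ => (fun u : ℝ => (u : ℂ) ^ (κ : ℂ) • g u) t⁻¹) (N * t)) w := by
      refine setIntegral_congr_fun measurableSet_Ioi fun t ht => ?_
      simp only [h t ht, smul_eq_mul, cpow_natCast, mul_assoc, mul_comm N t]
    rw [h2, mellin_const_smul, h1, smul_eq_mul, smul_eq_mul, mul_assoc]
    congr 3
    ring

theorem fec_sqrt {N : ℝ} (hN : 0 < N) (j : ℕ) :
    ((√N : ℝ) : ℂ) ^ j = (N : ℂ) ^ ((j : ℂ) / 2) := by
  rw [Real.sqrt_eq_rpow, ofReal_cpow hN.le, ← cpow_nat_mul]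
  congr 1
  push_cast
  ring

theorem fec_conj {n : O} (hn : n ≠ 0) : conj (al n) = (al n)⁻¹ := by
  rw [← Complex.inv_eq_conj (norm_al hn)]

theorem fec_pw (l : ℤ) {n : O} (hn : n ≠ 0) :
    D.pw (decide (0 ≤ l)) (sg n) ^ l.natAbs = ((√(nm n) : ℝ) : ℂ) ^ l.natAbs * al n ^ l ∧
    D.pw (!decide (0 ≤ l)) (sg n) ^ l.natAbs = ((√(nm n) : ℝ) : ℂ) ^ l.natAbs * al n ^ (-l) := by
  have e1 : ∀ j : ℕ, sg n ^ j = ((√(nm n) : ℝ) : ℂ) ^ j * al n ^ (j : ℤ) := fun j => by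
    rw [zpow_natCast, ← mul_pow, ← sg_eq_al]
  have e2 : ∀ j : ℕ, conj (sg n) ^ j = ((√(nm n) : ℝ) : ℂ) ^ j * al n ^ (-(j : ℤ)) := fun j => by
    rw [zpow_neg, zpow_natCast, ← inv_pow, ← mul_pow, ← fec_conj hn]
    conv_lhs => rw [sg_eq_al n, map_mul, conj_ofReal]
  by_cases hl : 0 ≤ l
  · have e3 : (l.natAbs : ℤ) = l := Int.natAbs_of_nonneg hl
    simp only [hl, decide_true, Bool.not_true, D.pw, if_true, Bool.false_eq_true, if_false]
    rw [e1, e2, e3]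
    exact ⟨rfl, rfl⟩
  · have e3 : (l.natAbs : ℤ) = -l := by omega
    simp only [hl, decide_false, Bool.not_false, D.pw, if_true, Bool.false_eq_true, if_false]
    rw [e1, e2, e3, neg_neg]
    exact ⟨rfl, rfl⟩

theorem fec_shift {σ₁ σ₂ a : ℝ} {F : ℂ → ℂ} (hF : ExpOn (σ₁ + a) (σ₂ + a) F) :
    ExpOn σ₁ σ₂ fun s => F (s + a) := by
  obtain ⟨C, A, h⟩ := hF
  refine ⟨C, A, fun s hs => ?_⟩
  have := h (s + a) ⟨by simpa using hs.1, by simpa using hs.2⟩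
  simpa using this

theorem fec_sum {Φ : O → ℂ} (h0 : Φ 0 = 0) {b : Bool} {j : ℕ} {l : ℤ}
    (hb : ∀ n : O, n ≠ 0 → D.pw b (sg n) ^ j = ((√(nm n) : ℝ) : ℂ) ^ j * al n ^ l) (s : ℂ) :
    ∑' n : O, Φ n * D.pw b (sg n) ^ j * (nm n : ℂ) ^ (-(s + j / 2)) =
      DD (fun n => Φ n * al n ^ l) nm s := by
  unfold DD
  refine tsum_congr fun n => ?_
  by_cases hn : n = 0
  · simp [hn, h0]
  have hN : (nm n : ℂ) ≠ 0 := ofReal_ne_zero.2 (nm_pos hn).ne'
  have e : (nm n : ℂ) ^ ((j : ℂ) / 2) * (nm n : ℂ) ^ (-(s + j / 2)) = (nm n : ℂ) ^ (-s) := by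
    rw [← cpow_add _ _ hN]
    congr 1
    ring
  rw [hb n hn, fec_sqrt (nm_pos hn), ← e]
  ring

/-- the functional equation: `j = |l|`, `b = (0 ≤ l)`, `D s = mellin (thl b j Ψ) (s + j/2) / gK (s + j/2)`,
`pw b (sg n) ^ j = al n ^ l · N(n)^(j/2)` -/
theorem exists_FE (l : ℤ) (hQ : Q ≠ 0) (h : Per Q Ψ) (h0 : Ψ 0 = 0) (h1 : FT Q Ψ 0 = 0) :
    ∃ (D : ℂ → ℂ) (E : ℂ), ‖E‖ = 1 ∧ Differentiable ℂ D ∧ ExpOn (1 - 2) 2 D ∧
      (∀ s : ℂ, s.re = 2 → D s = DD (fun n => Ψ n * al n ^ l) nm s) ∧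
      ∀ s : ℂ, s.re = 2 →
        D (1 - s) = E * (nm Q : ℂ) ^ (s - 1 / 2) * Rl l.natAbs s * DD (dual l Q Ψ) nm s := by
  set j := l.natAbs with hj
  set b := decide (0 ≤ l) with hb
  obtain ⟨M₁, hM₁⟩ := h.bdd hQ
  obtain ⟨M₂, hM₂⟩ := (per_FT Q Ψ).bdd hQ
  have hN := nm_pos hQ
  have hNc : (nm Q : ℂ) ≠ 0 := ofReal_ne_zero.2 hN.ne'
  obtain ⟨⟨hd, hbd⟩, hfe⟩ := mel_FE (thl_cont hM₁ b j) (thl_decay hM₁ h0 b j)
    (thl_decay hM₂ h1 (!b) j) hN _ (j + 1) (fun t ht => thl_FE hQ h b j ht)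
  have hjc : ((j : ℂ) / 2) = (((j : ℝ) / 2 : ℝ) : ℂ) := by push_cast; ring
  have hre : ∀ s : ℂ, (s + (j : ℂ) / 2).re = s.re + (j : ℝ) / 2 := fun s => by
    rw [hjc, add_re, ofReal_re]
  have hj0 : (0 : ℝ) ≤ j := Nat.cast_nonneg _
  refine ⟨fun s => mellin (thl b j Ψ) (s + j / 2) * (gK (s + j / 2))⁻¹,
    (if b then 1 else -1) ^ j * al Q ^ l, ?_, ?_, ?_, fun s hs => ?_, fun s hs => ?_⟩
  · rw [norm_mul, norm_pow, norm_zpow, norm_al hQ, one_zpow]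
    split_ifs <;> simp
  · exact (hd.comp (differentiable_id.add_const _)).mul
      (differentiable_inv_gK.comp (differentiable_id.add_const _))
  · rw [hjc]
    obtain ⟨B, hB⟩ := hbd (1 - 2 + (j : ℝ) / 2) (2 + (j : ℝ) / 2)
    exact (fec_shift (ExpOn.of_bdd fun s hs => hB s hs.1 hs.2)).mul
      (fec_shift (F := fun s => (gK s)⁻¹) (expOn_inv_gK _ _))
  · have hg : gK (s + j / 2) ≠ 0 := gK_ne_zero (by rw [hre]; linarith)
    simp only []
    rw [thl_mellin hM₁ h0 b j (by rw [hre]; linarith),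
      fec_sum h0 (fun n hn => (fec_pw l hn).1) s, mul_right_comm, mul_inv_cancel₀ hg, one_mul]
  · simp only []
    have e1 : ((j + 1 : ℕ) : ℂ) - (1 - s + j / 2) = s + j / 2 := by push_cast; ring
    have e2 : DD (fun n => FT Q Ψ n * al n ^ (-l)) nm s =
        ((√(nm Q) : ℝ) : ℂ) * DD (dual l Q Ψ) nm s := by
      unfold DD dual
      rw [← tsum_mul_left]
      refine tsum_congr fun n => ?_
      have : ((√(nm Q) : ℝ) : ℂ) ≠ 0 := ofReal_ne_zero.2 (Real.sqrt_pos.2 hN).ne'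
      field_simp
    have e3 : (nm Q : ℂ) ^ ((j : ℂ) / 2) * (nm Q : ℂ) ^ (-(1 - s + j / 2)) * ((√(nm Q) : ℝ) : ℂ) =
        (nm Q : ℂ) ^ (s - 1 / 2) := by
      have e4 := fec_sqrt hN 1
      rw [pow_one] at e4
      rw [e4, ← cpow_add _ _ hNc, ← cpow_add _ _ hNc]
      congr 1
      push_cast
      ring
    rw [hfe, e1, thl_mellin hM₂ h1 (!b) j (by rw [hre]; linarith),
      fec_sum h1 (fun n hn => (fec_pw l hn).2) s, e2, mul_pow, (fec_pw l hQ).1, fec_sqrt hN, ← e3, Rl]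
    ring

end Crest.Agent.R12.HK
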