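import Crest.Agent.R12.HK.Core

/-! Row 12, block HK: `StLSG → StMom`. -/

set_option autoImplicit false

namespace Crest.Agent.R12.HK

open Crest.Agent.R17 Complex MeasureTheory Filter Set
open scoped Real Topology ComplexConjugate

theorem tri_real {P U V K W ω B : ℝ} (hP : 0 < P) (hK : 0 ≤ K) (hW : 0 ≤ W) (h0 : 0 < ω) (h1 : ω ≤ 1)
    (hB : 1 ≤ B) (hU : 0 ≤ U) (hV : 0 ≤ V) (h2 : K ≤ U * ω) (h3 : W ≤ B * V * ω) :
    P * K + W + P ^ (1 / 3 : ℝ) * (K * W) ^ (2 / 3 : ℝ) ≤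
      B * (P * (U + V / P + (U * (V / P)) ^ (2 / 3 : ℝ)) * ω) := by
  have hB0 : 0 ≤ B := by linarith
  have e1 : P * (U * (V / P)) ^ (2 / 3 : ℝ) = P ^ (1 / 3 : ℝ) * (U * V) ^ (2 / 3 : ℝ) := by
    rw [← mul_div_assoc, Real.div_rpow (by positivity) hP.le, show (1 / 3 : ℝ) = 1 - 2 / 3 by norm_num,
      Real.rpow_sub hP, Real.rpow_one]
    ring
  have h4 : (K * W) ^ (2 / 3 : ℝ) ≤ B * ω * (U * V) ^ (2 / 3 : ℝ) := by
    have a1 : K * W ≤ B * ω ^ 2 * (U * V) :=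
      (mul_le_mul h2 h3 hW (by positivity)).trans (le_of_eq (by ring))
    refine (Real.rpow_le_rpow (by positivity) a1 (by norm_num)).trans ?_
    rw [Real.mul_rpow (by positivity) (by positivity), Real.mul_rpow hB0 (by positivity),
      ← Real.rpow_natCast, ← Real.rpow_mul h0.le]
    refine mul_le_mul_of_nonneg_right (mul_le_mul (Real.rpow_le_self_of_one_le hB (by norm_num))
      (Real.rpow_le_self_of_le_one h0.le h1 (by norm_num)) (by positivity) hB0) (by positivity)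
  have h5 := mul_le_mul_of_nonneg_left h4 (Real.rpow_nonneg hP.le (1 / 3))
  have h6 : P * K ≤ B * (P * U * ω) :=
    ((mul_le_mul_of_nonneg_left h2 hP.le).trans (le_of_eq (by ring))).trans
      (le_mul_of_one_le_left (by positivity) hB)
  rw [mul_add P, mul_add P, e1, mul_div_cancel₀ _ hP.ne']
  linarith

/-- one triple `(u, k₂, m)`, `K = U / (N u · N k₂² · N m³)` -/
theorem triple (h : StLSG) (l : ℤ) {r : ℕ} (hr : 1 ≤ r) {ε : ℝ} (hε : 0 < ε) :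
    ∃ C A : ℝ, 0 < C ∧ 0 ≤ A ∧
      ∀ (Z U : ℝ) (ζ : O) (i : ℕ) (k₂ m : O) (M t : Fin r → ℝ) (S : Finset O), 2 ≤ Z → 1 ≤ U → U ≤ Z →
      (∀ j, Z⁻¹ ≤ M j) → IsUnit ζ → PSq k₂ → Prim m →
      (∀ k ∈ S, PSq k ∧ IsCoprime k k₂ ∧ ¬ Cube (ζ * lam ^ i * k₂ ^ 2 * k * m ^ 3) ∧
        nm (ζ * lam ^ i * k₂ ^ 2 * k * m ^ 3) ≤ U) →
      ∑ k ∈ S, ‖∏ j, PSc l (ζ * lam ^ i * k₂ ^ 2 * k * m ^ 3) (M j) (t j)‖ ^ 2 ≤
        C * Z ^ ε * (1 + ∑ j, |t j|) ^ A * (∏ j, M j) *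
          (U + U ^ r / ∏ j, M j + (U * (U ^ r / ∏ j, M j)) ^ (2 / 3 : ℝ)) *
          ((nm (ζ * lam ^ i))⁻¹ * (nm k₂)⁻¹ * (nm m)⁻¹) := by
  have hε' : 0 < min 1 (ε / (3 * r + 2)) := lt_min one_pos (by positivity)
  obtain ⟨C₁, A, hC₁, hA, h₁⟩ := core_mask h l r hε' (min_le_left _ _)
  obtain ⟨C₂, hC₂, h₂⟩ := dn_pow_le (2 * r) hε'
  have he : min 1 (ε / (3 * r + 2)) * (3 * r + 2) ≤ ε :=
    (le_div_iff₀ (by positivity)).1 (min_le_right _ _)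
  have he1 := min_le_left 1 (ε / (3 * r + 2))
  generalize min 1 (ε / (3 * r + 2)) = e at *
  refine ⟨C₁ * C₂ * 81 ^ r * 81 ^ r, A, by positivity, hA,
    fun Z U ζ i k₂ m M t S hZ hU hUZ hM hζ hk₂ hm hS => ?_⟩
  have hZ0 : 0 < Z := by linarith
  have hU0 : 0 < U := by linarith
  have hM0 : ∀ j, 0 < M j := fun j => (inv_pos.2 hZ0).trans_le (hM j)
  have hP : 0 < ∏ j, M j := Finset.prod_pos fun j _ => hM0 j
  have hPZ : (∏ j, M j)⁻¹ ≤ Z ^ r := by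
    rw [inv_le_comm₀ hP (by positivity), ← inv_pow]
    simpa using Finset.prod_le_prod (s := Finset.univ) (fun _ _ => (inv_pos.2 hZ0).le) fun j _ => hM j
  have hT0 : 0 ≤ 1 + ∑ j, |t j| := add_nonneg zero_le_one (Finset.sum_nonneg fun _ _ => abs_nonneg _)
  have ha := one_le_nm (mul_ne_zero hζ.ne_zero (pow_ne_zero i lam_ne_zero))
  have hb := one_le_nm hk₂.ne_zero
  have hc := one_le_nm hm.ne_zero
  have hn : ∀ k, nm (ζ * lam ^ i * k₂ ^ 2 * k * m ^ 3) =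
      nm k * (nm (ζ * lam ^ i) * nm k₂ ^ 2 * nm m ^ 3) := fun k => by
    rw [nm_mul, nm_mul, nm_mul, nm_pow, nm_pow]
    ring
  have h3 := h₁ ζ i k₂ m (U / (nm (ζ * lam ^ i) * nm k₂ ^ 2 * nm m ^ 3)) M t S hζ hk₂ hm
  have h4 := h₂ m hm.ne_zero
  simp only [hn] at hS
  generalize nm (ζ * lam ^ i) = a at *
  generalize nm k₂ = b at *
  generalize nm m = c at *
  generalize ∏ j, M j = P at *
  generalize 1 + ∑ j, |t j| = T at *
  rcases S.eq_empty_or_nonempty with rfl | ⟨k, hk⟩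
  · rw [Finset.sum_empty]
    positivity
  have hd : 0 < a * b ^ 2 * c ^ 3 := by positivity
  have hK : 1 ≤ U / (a * b ^ 2 * c ^ 3) :=
    (one_le_nm (hS k hk).1.ne_zero).trans ((le_div_iff₀ hd).2 (hS k hk).2.2.2)
  refine (h3 hK hM0 fun k hk => ⟨(hS k hk).1, (le_div_iff₀ hd).2 (hS k hk).2.2.2, (hS k hk).2.1,
    fun ⟨n, hn⟩ => (hS k hk).2.2.1 ⟨n * m, by rw [hn, mul_pow]⟩⟩).trans ?_
  have hc2 : 1 ≤ c ^ 2 := one_le_pow₀ hc
  have hω : a⁻¹ * b⁻¹ * c⁻¹ ≤ 1 := by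
    rw [← mul_inv, ← mul_inv]
    exact inv_le_one_of_one_le₀ (one_le_mul_of_one_le_of_one_le (one_le_mul_of_one_le_of_one_le ha hb) hc)
  have hω0 : 0 < a⁻¹ * b⁻¹ * c⁻¹ := by positivity
  have k1 : b * (U / (a * b ^ 2 * c ^ 3)) ≤ U * (a⁻¹ * b⁻¹ * c⁻¹) := by
    rw [show b * (U / (a * b ^ 2 * c ^ 3)) = U * (a⁻¹ * b⁻¹ * c⁻¹) / c ^ 2 by field_simp]
    exact div_le_self (by positivity) hc2
  have k2 : U / (a * b ^ 2 * c ^ 3) ≤ U * (a⁻¹ * b⁻¹ * c⁻¹) :=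
    (le_mul_of_one_le_left (by positivity) hb).trans k1
  have k0 : c ≤ Z := by
    refine le_trans ?_ (((one_le_div hd).1 hK).trans hUZ)
    calc c = 1 * 1 * (c * 1) := by ring
      _ ≤ a * b ^ 2 * (c * c ^ 2) := by gcongr; exact one_le_pow₀ hb
      _ = _ := by ring
  generalize U / (a * b ^ 2 * c ^ 3) = K at *
  generalize a⁻¹ * b⁻¹ * c⁻¹ = ω at *
  have hUω : U * ω ≤ Z := (mul_le_of_le_one_right hU0.le hω).trans hUZ
  have k3 : (81 * b * K) ^ r ≤ 81 ^ r * U ^ r * ω := by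
    rw [mul_assoc, mul_pow, mul_assoc]
    refine mul_le_mul_of_nonneg_left ((pow_le_pow_left₀ (by positivity) k1 r).trans ?_) (by positivity)
    rw [mul_pow]
    exact mul_le_mul_of_nonneg_left (pow_le_of_le_one hω0.le hω (by omega)) (by positivity)
  have h81 : (1 : ℝ) ≤ 81 ^ r := one_le_pow₀ (by norm_num)
  have k4 := tri_real hP (by linarith) (by positivity) hω0 hω h81 hU0.le (by positivity) k2 k3
  have k5 : K * ((81 * b * K) ^ r * c ^ r / P) ≤ 81 ^ r * Z ^ (3 * r + 1) := by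
    have := k2.trans hUω
    have := k1.trans hUω
    calc _ = K * (81 ^ r * (b * K) ^ r * c ^ r * P⁻¹) := by rw [mul_assoc 81, mul_pow]; ring
      _ ≤ Z * (81 ^ r * Z ^ r * Z ^ r * Z ^ r) := by gcongr
      _ = _ := by ring
  have k6 : c ^ e * (K * ((81 * b * K) ^ r * c ^ r / P)) ^ e ≤ 81 ^ r * Z ^ ε := by
    calc _ ≤ Z ^ e * (81 ^ r * Z ^ (3 * r + 1)) ^ e := by gcongr
      _ = (81 ^ r) ^ e * Z ^ (e * (3 * r + 2)) := by
        rw [Real.mul_rpow (by positivity) (by positivity), ← Real.rpow_natCast Z, ← Real.rpow_mul hZ0.le,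
          mul_left_comm, ← Real.rpow_add hZ0]
        congr 2
        push_cast
        ring
      _ ≤ _ := mul_le_mul (Real.rpow_le_self_of_one_le h81 he1)
        (Real.rpow_le_rpow_of_exponent_le (by linarith) he) (by positivity) (by positivity)
  calc _ ≤ C₁ * T ^ A * (C₂ * c ^ e) * (K * ((81 * b * K) ^ r * c ^ r / P)) ^ e *
        (81 ^ r * (P * (U + U ^ r / P + (U * (U ^ r / P)) ^ (2 / 3 : ℝ)) * ω)) := by gcongr
    _ = C₁ * T ^ A * C₂ * (c ^ e * (K * ((81 * b * K) ^ r * c ^ r / P)) ^ e) *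
        (81 ^ r * (P * (U + U ^ r / P + (U * (U ^ r / P)) ^ (2 / 3 : ℝ)) * ω)) := by ring
    _ ≤ C₁ * T ^ A * C₂ * (81 ^ r * Z ^ ε) *
        (81 ^ r * (P * (U + U ^ r / P + (U * (U ^ r / P)) ^ (2 / 3 : ℝ)) * ω)) := by gcongr
    _ = _ := by ring

theorem stMom (h : StLSG) : StMom := by
  classical
  intro l r ε hr hε
  obtain ⟨C₁, A, hC₁, hA, h₁⟩ := triple h l hr (half_pos hε)
  obtain ⟨C₂, hC₂, h₂⟩ := one_add_log_rpow_le 3 (half_pos hε)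
  refine ⟨max (C₁ * 44 ^ 3 * C₂) A, fun Z U M t S hZ hU hUZ hM hS => ?_⟩
  have hZ0 : 0 < Z := by linarith
  have hP : 0 < ∏ j, M j := Finset.prod_pos fun j _ => (inv_pos.2 hZ0).trans_le (hM j).1
  have hT : 1 ≤ 1 + ∑ j, |t j| := le_add_of_nonneg_right (Finset.sum_nonneg fun _ _ => abs_nonneg _)
  obtain ⟨G, hG⟩ : ∃ G : O × O × O → O → Prop, ∀ g k, G g k ↔ (∃ ζ i, IsUnit ζ ∧ g.1 = ζ * lam ^ i) ∧
      PSq g.2.1 ∧ Prim g.2.2 ∧ PSq k ∧ IsCoprime k g.2.1 ∧ ¬ Cube (g.1 * g.2.1 ^ 2 * k * g.2.2 ^ 3) ∧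
      nm (g.1 * g.2.1 ^ 2 * k * g.2.2 ^ 3) ≤ U := ⟨_, fun _ _ => Iff.rfl⟩
  refine (ctb_cover S ((ball U ×ˢ ball U ×ˢ ball U).sigma fun g => (ball U).filter (G g))
    (fun x => x.1.1 * x.1.2.1 ^ 2 * x.2 * x.1.2.2 ^ 3) _ (fun _ => sq_nonneg _) fun k hk => ?_).trans ?_
  · obtain ⟨h0, hkU, hc⟩ := hS k hk
    obtain ⟨ζ, i, k₁, k₂, m, hζ, h1, h2, h3, hm, rfl⟩ := row_decomp h0
    have hd : ∀ d, d ∣ ζ * lam ^ i * k₂ ^ 2 * k₁ * m ^ 3 → d ∈ ball U := fun d hd =>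
      mem_ball.2 ((nm_le_of_dvd hd h0).trans hkU)
    refine ⟨⟨(ζ * lam ^ i, k₂, m), k₁⟩, ?_, rfl⟩
    simp only [Finset.mem_sigma, Finset.mem_product, Finset.mem_filter, hG]
    exact ⟨⟨hd _ ⟨k₂ ^ 2 * k₁ * m ^ 3, by ring⟩, hd _ ⟨ζ * lam ^ i * k₂ * k₁ * m ^ 3, by ring⟩,
      hd _ ⟨ζ * lam ^ i * k₂ ^ 2 * k₁ * m ^ 2, by ring⟩⟩, hd _ ⟨ζ * lam ^ i * k₂ ^ 2 * m ^ 3, by ring⟩,
      ⟨ζ, i, hζ, rfl⟩, h2, hm, h1, h3, hc, hkU⟩
  rw [Finset.sum_sigma]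
  have h3 := fun ζ i k₂ m S => h₁ Z U ζ i k₂ m M t S hZ hU hUZ fun j => (hM j).1
  have hU0 : 0 < U := by linarith
  generalize ∏ j, M j = P at *
  generalize 1 + ∑ j, |t j| = T at *
  have hB : 0 ≤ U + U ^ r / P + (U * (U ^ r / P)) ^ (2 / 3 : ℝ) := by positivity
  generalize U + U ^ r / P + (U * (U ^ r / P)) ^ (2 / 3 : ℝ) = B at *
  have h4 : ∀ g ∈ ball U ×ˢ ball U ×ˢ ball U, ∑ k ∈ (ball U).filter (G g),
      ‖∏ j, PSc l (g.1 * g.2.1 ^ 2 * k * g.2.2 ^ 3) (M j) (t j)‖ ^ 2 ≤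
      C₁ * Z ^ (ε / 2) * T ^ A * P * B * ((nm g.1)⁻¹ * (nm g.2.1)⁻¹ * (nm g.2.2)⁻¹) := by
    rintro ⟨u, k₂, m⟩ -
    rcases ((ball U).filter (G (u, k₂, m))).eq_empty_or_nonempty with h0 | ⟨k, hk⟩
    · have := nm_nonneg u
      have := nm_nonneg k₂
      have := nm_nonneg m
      rw [h0, Finset.sum_empty]
      positivity
    · obtain ⟨⟨ζ, i, hζ, hu⟩, h2, hm, -⟩ := (hG _ _).1 (Finset.mem_filter.1 hk).2
      obtain rfl : u = ζ * lam ^ i := hu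
      exact h3 ζ i k₂ m _ hζ h2 hm fun k hk => ((hG _ _).1 (Finset.mem_filter.1 hk).2).2.2.2
  refine (Finset.sum_le_sum h4).trans ?_
  have h5 : ∑ n ∈ ball U, (nm n)⁻¹ ≤ 44 * (1 + Real.log Z) :=
    sum_inv_nm_le (by linarith) fun n hn => (mem_ball.1 hn).trans hUZ
  have h6 : 0 ≤ ∑ n ∈ ball U, (nm n)⁻¹ := Finset.sum_nonneg fun n _ => inv_nonneg.2 (nm_nonneg n)
  have h7 := h₂ Z (by linarith)
  rw [Real.rpow_ofNat] at h7
  rw [← Finset.mul_sum]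
  simp only [Finset.sum_product, ← Finset.mul_sum, ← Finset.sum_mul]
  generalize ∑ n ∈ ball U, (nm n)⁻¹ = σ at *
  calc _ = C₁ * Z ^ (ε / 2) * T ^ A * P * B * σ ^ 3 := by ring
    _ ≤ C₁ * Z ^ (ε / 2) * T ^ A * P * B * (44 ^ 3 * (C₂ * Z ^ (ε / 2))) := by
      gcongr
      exact (pow_le_pow_left₀ h6 h5 3).trans (by rw [mul_pow]; gcongr)
    _ = C₁ * 44 ^ 3 * C₂ * (Z ^ (ε / 2) * Z ^ (ε / 2)) * T ^ A * P * B := by ring
    _ ≤ _ := by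
      rw [← Real.rpow_add hZ0, add_halves]
      gcongr
      · exact le_max_left _ _
      · exact le_max_right _ _

end Crest.Agent.R12.HK
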