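import Crest.Agent.R12.HK.Core

/-! Row 12, block HK: `StPV` (Pólya–Vinogradov for plain sums). -/

set_option autoImplicit false

namespace Crest.Agent.R12.HK

open Crest.Agent.R17 Complex MeasureTheory Filter Set
open scoped Real Topology ComplexConjugate

theorem pv_row (l : ℤ) : ∃ C A : ℝ, 0 < C ∧ 0 ≤ A ∧ ∀ (ζ : O) (i : ℕ) (k₁ k₂ : O) (X t : ℝ), IsUnit ζ →
    PSq k₁ → PSq k₂ → IsCoprime k₁ k₂ → ¬ Cube (ζ * lam ^ i * k₂ ^ 2 * k₁) → 0 < X →
    ‖PSc l (ζ * lam ^ i * k₂ ^ 2 * k₁) X t‖ ≤ C * (1 + |t|) ^ A * √(nm (k₁ * k₂)) := by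
  obtain ⟨C, A, hC, hA, h⟩ := cora_row l (δ := 1 / 2) (by norm_num) (by norm_num)
  obtain ⟨D, hD, hS⟩ := sum_LN_O (a := 1 / 2) (by norm_num) 0
  refine ⟨√(C * (D * 9) ^ 2 * 4 * 81), A / 2, by positivity, by positivity,
    fun ζ i k₁ k₂ X t hζ h₁ h₂ hc hn hX => ?_⟩
  obtain ⟨a, a0, ha, h⟩ := h ζ i k₂ hζ h₂
  have n1 := nm_pos h₁.ne_zero
  have n2 := nm_pos h₂.ne_zero
  have hq : 0 < 81 * nm k₂ * nm k₁ / X := by positivity
  have h := h k₁ X t (Real.log (81 * nm k₂ * nm k₁ / X)) h₁ hc hn hX (Real.exp_log hq).ge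
  obtain ⟨i1, i2⟩ := int_vv (δ := 1 / 2) (θ := 2) (by norm_num) (by norm_num) (by norm_num)
    (Real.log (81 * nm k₂ * nm k₁ / X))
  have hb : ∀ ξ : ℝ, ‖SS (fun n => a n * conj (cb n k₁)) nm (1 / 2) (Real.exp ξ) (-t)‖ ≤
      D * 9 * Real.exp ξ := fun ξ => by
    obtain ⟨s1, s2⟩ := hS (ι := O) id (fun n => a n * conj (cb n k₁)) 9 (Real.exp ξ) (-t)
      Function.injective_id (fun n hn => by simp only [id] at hn; simp [hn, a0])
      (fun n _ => by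
        rw [Real.rpow_zero, mul_one, norm_mul, RCLike.norm_conj]
        exact (mul_le_of_le_one_right (norm_nonneg _) (norm_cb_le _ _)).trans (ha n))
      (by norm_num) (Real.exp_pos ξ)
    rw [zero_add, Real.rpow_one] at s2
    exact (norm_tsum_le_tsum_norm s1).trans s2
  have hi : ∫ ξ : ℝ, vv (1 / 2) (Real.log (81 * nm k₂ * nm k₁ / X)) ξ *
      ‖SS (fun n => a n * conj (cb n k₁)) nm (1 / 2) (Real.exp ξ) (-t)‖ ^ 2 ≤
      (D * 9) ^ 2 * (4 * (81 * nm k₂ * nm k₁ / X)) := by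
    calc _ ≤ ∫ ξ : ℝ, (D * 9) ^ 2 * (vv (1 / 2) (Real.log (81 * nm k₂ * nm k₁ / X)) ξ * Real.exp (2 * ξ)) := by
          refine integral_mono_of_nonneg (Eventually.of_forall fun ξ => ?_) (i1.const_mul _)
            (Eventually.of_forall fun ξ => ?_)
          · exact mul_nonneg (Real.exp_pos _).le (sq_nonneg _)
          · have hv : 0 ≤ vv (1 / 2) (Real.log (81 * nm k₂ * nm k₁ / X)) ξ := (Real.exp_pos _).le
            have e : Real.exp (2 * ξ) = Real.exp ξ ^ 2 := by rw [← Real.exp_nat_mul]; norm_num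
            beta_reduce
            calc _ ≤ vv (1 / 2) (Real.log (81 * nm k₂ * nm k₁ / X)) ξ * (D * 9 * Real.exp ξ) ^ 2 := by
                  gcongr; exact hb ξ
              _ = _ := by rw [e]; ring
      _ ≤ _ := by
          rw [integral_const_mul]
          gcongr
          refine i2.trans_eq ?_
          rw [show (2 : ℝ) - 1 = 1 by norm_num, one_mul, Real.exp_log hq]
          norm_num
  have ht : 0 < 1 + |t| := by positivity
  refine (pow_le_pow_iff_left₀ (norm_nonneg _) (by positivity) two_ne_zero).1 (h.trans ?_)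
  rw [mul_pow, mul_pow, Real.sq_sqrt (by positivity), Real.sq_sqrt (nm_nonneg _), ← Real.rpow_natCast (_ ^ (A / 2)),
    ← Real.rpow_mul ht.le, nm_mul]
  calc _ ≤ C * (1 + |t|) ^ A * X * ((D * 9) ^ 2 * (4 * (81 * nm k₂ * nm k₁ / X))) := by gcongr
    _ = _ := by
      rw [show A / 2 * ((2 : ℕ) : ℝ) = A by push_cast; ring]
      field_simp

end Crest.Agent.R12.HK

namespace Crest.Agent.R12

open Crest.Agent.R17 HK

theorem stPV : StPV := by
  classical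
  intro l ε hε
  obtain ⟨C, A, hC, hA, h⟩ := pv_row l
  obtain ⟨D, hD, hd⟩ := card_pdiv_le hε
  refine ⟨max (C * D) A, fun Z M t k₀ m hZ hM _ hk hm hn hz => ?_⟩
  have hM0 : 0 < M := (inv_pos.2 (by linarith)).trans_le hM
  obtain ⟨ζ, i, k₁, k₂, m₀, hζ, h₁, h₂, hc, hm₀, e⟩ := row_decomp hk
  obtain ⟨u, j, m', hu, hm', e'⟩ := exists_decomp hm
  have e2 : k₀ * m ^ 3 = ζ * u ^ 3 * lam ^ (i + 3 * j) * k₂ ^ 2 * k₁ * (m₀ * m') ^ 3 := by
    rw [e, e']; ring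
  have hp : Prim (m₀ * m') := hm₀.mul hm'
  have hn' : ¬ Cube (ζ * u ^ 3 * lam ^ (i + 3 * j) * k₂ ^ 2 * k₁) := by
    rw [← cube_mul_cube_iff hp.ne_zero, ← e2, cube_mul_cube_iff hm]; exact hn
  have hr : nm (k₁ * k₂) ≤ nm (rad k₀) := by
    have hs : PSq (k₁ * k₂) := (psq_mul_iff h₁.1 h₂.1).2 ⟨h₁, h₂, hc⟩
    refine nm_le_of_dvd ?_ (prim_rad k₀).ne_zero
    rw [← hs.1.rad_eq hs.2]
    refine Finset.prod_dvd_prod_of_subset _ _ _ fun p hp => ?_
    obtain ⟨p1, p2, p3⟩ := pra_of_mem_pfs hp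
    exact (mem_pfs hk).2 ⟨p1, p2, p3.trans ⟨ζ * lam ^ i * k₂ * m₀ ^ 3, by rw [e]; ring⟩⟩
  have hz' : nm (m₀ * m') ≤ Z := by
    refine (nm_le_of_dvd ?_ (mul_ne_zero hk (pow_ne_zero 3 hm))).trans hz
    exact ⟨ζ * u ^ 3 * lam ^ (i + 3 * j) * k₂ ^ 2 * k₁ * (m₀ * m') ^ 2, by rw [e2]; ring⟩
  have ht : 1 ≤ 1 + |t| := by linarith [abs_nonneg t]
  rw [e2]
  refine (PSc_mask l _ hp hM0 t).trans ?_
  calc _ ≤ ∑ d ∈ pdiv (m₀ * m'), C * (1 + |t|) ^ A * √(nm (rad k₀)) := by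
        refine Finset.sum_le_sum fun d hd' => ?_
        have hd0 : d ≠ 0 := ((mem_pdiv hp.ne_zero).1 hd').1.ne_zero
        refine (h _ _ k₁ k₂ _ t (hζ.mul (hu.pow 3)) h₁ h₂ hc hn' (div_pos hM0 (nm_pos hd0))).trans ?_
        gcongr
    _ = ((pdiv (m₀ * m')).card : ℝ) * (C * (1 + |t|) ^ A * √(nm (rad k₀))) := by
        rw [Finset.sum_const, nsmul_eq_mul]
    _ ≤ (D * Z ^ ε) * (C * (1 + |t|) ^ A * √(nm (rad k₀))) := by
        gcongr
        refine (hd _ hp.ne_zero).trans ?_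
        gcongr
        exact nm_nonneg _
    _ = C * D * Z ^ ε * (1 + |t|) ^ A * √(nm (rad k₀)) := by ring
    _ ≤ _ := by
        gcongr
        · exact le_max_left _ _
        · exact le_max_right _ _

end Crest.Agent.R12
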