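import Crest.Agent.R12.HK.FE

/-! Row 12, block HK: reflection of one smooth sum, with a weight independent of the row. -/

set_option autoImplicit false

namespace Crest.Agent.R12.HK

open Crest.Agent.R17 Complex MeasureTheory Filter Set
open scoped Real Topology ComplexConjugate

theorem rfa_Rl (j : ℕ) (s : ℂ) :
    Rl j s = ((2 * π / √3 : ℝ) : ℂ) ^ (((-2 : ℝ) : ℂ) * s + ((1 : ℝ) : ℂ)) *
      (Gamma (s + (((j : ℝ) / 2 : ℝ) : ℂ)) * (Gamma (1 - s + (((j : ℝ) / 2 : ℝ) : ℂ)))⁻¹) := by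
  have hX : ((2 * π / √3 : ℝ) : ℂ) ≠ 0 := by exact_mod_cast gc_XK_pos.ne'
  have h : ((2 * π / √3 : ℝ) : ℂ) ^ (((-2 : ℝ) : ℂ) * s + ((1 : ℝ) : ℂ)) =
      ((2 * π / √3 : ℝ) : ℂ) ^ (-(s + j / 2)) * ((2 * π / √3 : ℝ) : ℂ) ^ (1 - s + j / 2) := by
    rw [← cpow_add _ _ hX]
    congr 1
    push_cast
    ring
  have h2 : (((j : ℝ) / 2 : ℝ) : ℂ) = (j : ℂ) / 2 := by push_cast; ring
  rw [Rl, gK, gK, mul_inv, cpow_neg _ (1 - s + j / 2), inv_inv, h, h2]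
  ring

/-- `gK` unfolded (see `gc_RK`), `gc_polyOn_mul`, `gc_polyOn_cpow`, `polyOn_Gamma_ratio`, `gc_polyOn_mono` -/
theorem polyOn_Rl (j : ℕ) : PolyOn 0 (Rl j) := by
  have h : Rl j = _ := funext (rfa_Rl j)
  rw [h]
  exact gc_polyOn_mul (gc_polyOn_cpow gc_XK_pos _ _ _)
    (gc_polyOn_mono (polyOn_Gamma_ratio ((j : ℝ) / 2)) (by
      have : (0 : ℝ) ≤ (j : ℝ) / 2 := by positivity
      linarith))

/-- `norm_rk_le'` at `σ = 1/2` and `σ = 3` -/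
theorem rk_bound (j : ℕ) : ∃ C A : ℝ, 0 < C ∧ 0 ≤ A ∧ ∀ t η : ℝ,
    ‖rk 1 (1 / 2) (Rl j) t η‖ ≤ C * (1 + |t|) ^ A * Real.exp (-η / 2 - 5 / 2 * max η 0) := by
  obtain ⟨C₁, A₁, hC₁, hA₁, h₁⟩ := norm_rk_le' (σ := 1 / 2) (polyOn_Rl j) one_pos (by norm_num)
    (a := 1) (b := 1 / 2) (by norm_num) (by norm_num)
  obtain ⟨C₂, A₂, hC₂, hA₂, h₂⟩ := norm_rk_le' (σ := 3) (polyOn_Rl j) one_pos (by norm_num)
    (a := 1) (b := 1 / 2) (by norm_num) (by norm_num)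
  refine ⟨C₁ + C₂, A₁ + A₂, by positivity, by positivity, fun t η => ?_⟩
  have ht : (1 : ℝ) ≤ 1 + |t| := by linarith [abs_nonneg t]
  rcases le_total η 0 with h | h
  · refine (h₁ t η).trans ?_
    rw [max_eq_right h]
    have e : -(1 / 2 : ℝ) * η = -η / 2 - 5 / 2 * 0 := by ring
    rw [e]
    have := Real.rpow_le_rpow_of_exponent_le ht (show A₁ ≤ A₁ + A₂ by linarith)
    gcongr
    linarith
  · refine (h₂ t η).trans ?_
    rw [max_eq_left h]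
    have e : -(3 : ℝ) * η = -η / 2 - 5 / 2 * η := by ring
    rw [e]
    have := Real.rpow_le_rpow_of_exponent_le ht (show A₂ ≤ A₁ + A₂ by linarith)
    gcongr
    linarith

theorem int_exp_abs {δ : ℝ} (hδ : 0 < δ) (L : ℝ) :
    Integrable (fun ξ : ℝ => Real.exp (-δ * |ξ - L|)) ∧ ∫ ξ : ℝ, Real.exp (-δ * |ξ - L|) = 2 / δ := by
  have h : ∫ ξ : ℝ, Real.exp (-δ * |ξ - L|) = 2 / δ := by
    rw [integral_sub_right_eq_self (fun ξ : ℝ => Real.exp (-δ * |ξ|)) L,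
      integral_comp_abs (f := fun x => Real.exp (-δ * x)), integral_exp_mul_Ioi (by linarith) 0]
    simp only [mul_zero, Real.exp_zero]
    field_simp
  refine ⟨Integrable.of_integral_ne_zero ?_, h⟩
  rw [h]
  positivity

/-- pointwise `vv δ L ξ · e^{θ ξ} ≤ e^{(θ-1) L} e^{-δ |ξ - L|}` (cases `ξ ≤ L`, `L ≤ ξ`) -/
theorem int_vv {δ θ : ℝ} (hδ : 0 < δ) (h1 : 1 + 2 * δ ≤ θ) (h2 : θ + 2 * δ ≤ 6) (L : ℝ) :
    Integrable (fun ξ : ℝ => vv δ L ξ * Real.exp (θ * ξ)) ∧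
      ∫ ξ : ℝ, vv δ L ξ * Real.exp (θ * ξ) ≤ 2 / δ * Real.exp ((θ - 1) * L) := by
  obtain ⟨hi, hv⟩ := int_exp_abs hδ L
  have hp : ∀ ξ : ℝ, vv δ L ξ * Real.exp (θ * ξ) ≤
      Real.exp ((θ - 1) * L) * Real.exp (-δ * |ξ - L|) := by
    intro ξ
    rw [vv, ← Real.exp_add, ← Real.exp_add]
    refine Real.exp_le_exp.2 ?_
    rcases le_total (ξ - L) 0 with h | h
    · rw [max_eq_right h, abs_of_nonpos h]
      nlinarith [mul_nonneg (show 0 ≤ θ - 1 - 2 * δ by linarith) (show 0 ≤ L - ξ by linarith)]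
    · rw [max_eq_left h, abs_of_nonneg h]
      nlinarith [mul_nonneg (show 0 ≤ 6 - θ - 2 * δ by linarith) h]
  have hc : Continuous fun ξ : ℝ => vv δ L ξ * Real.exp (θ * ξ) := by
    unfold vv
    fun_prop
  have h0 : ∀ ξ : ℝ, 0 ≤ vv δ L ξ * Real.exp (θ * ξ) := fun ξ => by
    unfold vv
    positivity
  have hI : Integrable (fun ξ : ℝ => vv δ L ξ * Real.exp (θ * ξ)) :=
    (hi.const_mul (Real.exp ((θ - 1) * L))).mono' hc.aestronglyMeasurable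
      (Eventually.of_forall fun ξ => by rw [Real.norm_of_nonneg (h0 ξ)]; exact hp ξ)
  refine ⟨hI, (integral_mono hI (hi.const_mul _) hp).trans ?_⟩
  rw [integral_const_mul, hv, mul_comm]

theorem adm_bdd {c : O → ℂ} {M : ℝ} (h0 : c 0 = 0) (h : ∀ n, ‖c n‖ ≤ M) : Adm c nm 2 := by
  refine ⟨fun n hn => nm_pos (fun e => hn (e ▸ h0)), ?_⟩
  refine Summable.of_nonneg_of_le
    (fun n => mul_nonneg (norm_nonneg _) (Real.rpow_nonneg (nm_nonneg _) _)) (fun n => ?_)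
    ((summable_nm_rpow (σ := 2) one_lt_two).mul_left M)
  exact mul_le_mul_of_nonneg_right (h n) (Real.rpow_nonneg (nm_nonneg _) _)

/-- `sb_cont_centre`, `Adm.norm_SS_le` (`σ = 2`), `int_vv` with `θ = 4` -/
theorem int_vv_SS {δ : ℝ} (hδ : 0 < δ) (hδ1 : δ ≤ 1) {c : O → ℂ} (h : Adm c nm 2) (L t : ℝ) :
    Integrable fun ξ : ℝ => vv δ L ξ * ‖SS c nm (1 / 2) (Real.exp ξ) t‖ ^ 2 := by
  obtain ⟨hi, -⟩ := int_vv (θ := 4) hδ (by linarith) (by linarith) L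
  have hb : (0 : ℝ) < 1 / 2 := by norm_num
  have hc1 := sb_cont_centre h hb t
  have hc : Continuous fun ξ : ℝ => vv δ L ξ * ‖SS c nm (1 / 2) (Real.exp ξ) t‖ ^ 2 := by
    refine Continuous.mul ?_ (hc1.norm.pow 2)
    unfold vv
    fun_prop
  set K : ℝ := Real.exp ((1 / 2 : ℝ) ^ 2 * (2 : ℝ) ^ 2 / 2) * DA c nm 2 with hK
  refine (hi.const_mul (K ^ 2)).mono' hc.aestronglyMeasurable (Eventually.of_forall fun ξ => ?_)
  have hv : 0 ≤ vv δ L ξ := by unfold vv; positivity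
  rw [Real.norm_of_nonneg (by positivity)]
  have h1 := h.norm_SS_le hb (Real.exp_pos ξ) t
  have e : Real.exp ((1 / 2 : ℝ) ^ 2 * (2 : ℝ) ^ 2 / 2) * Real.exp ξ ^ (2 : ℝ) * DA c nm 2 =
      K * Real.exp (2 * ξ) := by
    rw [← Real.exp_mul, hK, mul_comm ξ 2]
    ring
  rw [e] at h1
  have h2 : ‖SS c nm (1 / 2) (Real.exp ξ) t‖ ^ 2 ≤ K ^ 2 * Real.exp (4 * ξ) := by
    refine (pow_le_pow_left₀ (norm_nonneg _) h1 2).trans (le_of_eq ?_)
    rw [mul_pow, ← Real.exp_nat_mul]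
    congr 2
    push_cast
    ring
  calc vv δ L ξ * ‖SS c nm (1 / 2) (Real.exp ξ) t‖ ^ 2 ≤ vv δ L ξ * (K ^ 2 * Real.exp (4 * ξ)) :=
        mul_le_mul_of_nonneg_left h2 hv
    _ = K ^ 2 * (vv δ L ξ * Real.exp (4 * ξ)) := by ring

theorem rfb_adm {Ψ : O → ℂ} {M : ℝ} (h0 : Ψ 0 = 0) (h : ∀ n, ‖Ψ n‖ ≤ M) (l : ℤ) :
    Adm (fun n => Ψ n * al n ^ l) nm 2 := by
  refine adm_bdd (M := M) (by simp [h0]) fun n => ?_
  by_cases hn : n = 0
  · subst hn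
    simpa [h0] using h 0
  · rw [norm_mul, norm_zpow, norm_al hn, one_zpow, mul_one]
    exact h n

/-- `reflect` (`σ = 2`, `a = 1`, `b = 1/2`) with `exists_FE`; substitute `ξ = η + log (N Q / X)`
(`integral_sub_right_eq_self`); the kernel `X/√NQ · rk (ξ - log (NQ/X))` is at most
`C (1+|t|)^A √X exp (-ξ/2 - 5/2 max (ξ - L) 0)` by `rk_bound`; Cauchy–Schwarz (`gb_cs` with
`φ = exp (-δ |ξ - L|)`, `int_exp_abs`). -/
theorem refl_sq (l : ℤ) {δ : ℝ} (hδ : 0 < δ) (hδ1 : δ ≤ 1) : ∃ C A : ℝ, 0 < C ∧ 0 ≤ A ∧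
    ∀ (Q : O) (Ψ : O → ℂ) (X t L : ℝ), Q ≠ 0 → Per Q Ψ → Ψ 0 = 0 → FT Q Ψ 0 = 0 → 0 < X →
      nm Q / X ≤ Real.exp L →
      ‖SS (fun n => Ψ n * al n ^ l) nm 1 X t‖ ^ 2 ≤ C * (1 + |t|) ^ A * X *
        ∫ ξ : ℝ, vv δ L ξ * ‖SS (dual l Q Ψ) nm (1 / 2) (Real.exp ξ) (-t)‖ ^ 2 := by
  obtain ⟨C, A, hC, hA, hk⟩ := rk_bound l.natAbs
  refine ⟨2 / δ * C ^ 2, 2 * A, by positivity, by positivity, ?_⟩
  intro Q Ψ X t L hQ h h0 h1 hX hL
  have hN : 0 < nm Q := nm_pos hQ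
  obtain ⟨M, hM⟩ := h.bdd hQ
  obtain ⟨M', hM'⟩ := (per_FT Q Ψ).bdd hQ
  have a1 := rfb_adm h0 hM l
  have a2 : Adm (dual l Q Ψ) nm 2 :=
    rfb_adm (Ψ := fun h => FT Q Ψ h / (√(nm Q) : ℝ)) (M := M' / √(nm Q)) (by simp [h1])
      (fun n => by
        rw [norm_div, Complex.norm_real, Real.norm_of_nonneg (Real.sqrt_nonneg _)]
        exact div_le_div_of_nonneg_right (hM' n) (Real.sqrt_nonneg _)) (-l)
  obtain ⟨D, E, hE, hd, hb, hD, hFE⟩ := exists_FE l hQ h h0 h1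
  have hr := (reflect a1 a2 (polyOn_Rl l.natAbs) zero_lt_one (by norm_num) (a := 1) (b := 1 / 2)
    (by norm_num) (by norm_num) hX hN t hd.differentiableOn hb hD hFE).2
  set ℓ := Real.log (nm Q / X) with hℓ
  have hexp : Real.exp ℓ = nm Q / X := Real.exp_log (by positivity)
  have hℓL : ℓ ≤ L := Real.exp_le_exp.1 (hexp ▸ hL)
  set F : ℝ → ℂ := fun ξ => SS (dual l Q Ψ) nm (1 / 2) (Real.exp ξ) (-t) with hF
  have hFc : Continuous F := sb_cont_centre a2 (by norm_num) (-t)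
  set K : ℝ := C * (1 + |t|) ^ A * Real.exp (ℓ / 2) with hK
  have hK0 : 0 < K := by positivity
  set W : ℝ → ℝ := fun ξ => K * Real.exp (-ξ / 2 - 5 / 2 * max (ξ - L) 0 + δ * |ξ - L|) with hW
  have hW0 : ∀ ξ, 0 < W ξ := fun ξ => by positivity
  have hWc : Continuous W := by fun_prop
  have e1 : (∫ η : ℝ, rk 1 (1 / 2) (Rl l.natAbs) t η *
      SS (dual l Q Ψ) nm (1 / 2) (nm Q / X * Real.exp η) (-t)) =
      ∫ ξ : ℝ, rk 1 (1 / 2) (Rl l.natAbs) t (ξ - ℓ) / (W ξ : ℂ) * ((W ξ : ℂ) * F ξ) := by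
    rw [← integral_sub_right_eq_self _ ℓ]
    refine integral_congr_ae (Eventually.of_forall fun ξ => ?_)
    have : (W ξ : ℂ) ≠ 0 := by exact_mod_cast (hW0 ξ).ne'
    simp only [hF]
    rw [← hexp, ← Real.exp_add, add_sub_cancel]
    field_simp
  have e2 : ∀ ξ : ℝ, Real.exp (-δ * |ξ - L|) * ‖(W ξ : ℂ) * F ξ‖ ^ 2 =
      K ^ 2 * (vv δ L ξ * ‖F ξ‖ ^ 2) := by
    intro ξ
    rw [norm_mul, Complex.norm_real, Real.norm_of_nonneg (hW0 ξ).le]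
    have : vv δ L ξ = Real.exp (-δ * |ξ - L|) *
        Real.exp (-ξ / 2 - 5 / 2 * max (ξ - L) 0 + δ * |ξ - L|) ^ 2 := by
      rw [vv, sq, ← Real.exp_add, ← Real.exp_add]
      congr 1
      ring
    rw [this]
    simp only [hW]
    ring
  have cs := gb_cs (μ := volume) (k := fun ξ => rk 1 (1 / 2) (Rl l.natAbs) t (ξ - ℓ) / (W ξ : ℂ))
    (F := fun ξ => (W ξ : ℂ) * F ξ) (φ := fun ξ => Real.exp (-δ * |ξ - L|))
    ((Complex.continuous_ofReal.comp hWc).mul hFc).aestronglyMeasurable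
    (fun ξ => by
      rw [norm_div, Complex.norm_real, Real.norm_of_nonneg (hW0 ξ).le, div_le_iff₀ (hW0 ξ)]
      refine (hk t (ξ - ℓ)).trans ?_
      simp only [hW, hK]
      have : Real.exp (-(ξ - ℓ) / 2 - 5 / 2 * max (ξ - ℓ) 0) ≤ Real.exp (-δ * |ξ - L|) *
          (Real.exp (ℓ / 2) * Real.exp (-ξ / 2 - 5 / 2 * max (ξ - L) 0 + δ * |ξ - L|)) := by
        rw [← Real.exp_add, ← Real.exp_add]
        refine Real.exp_le_exp.2 ?_
        have : max (ξ - L) 0 ≤ max (ξ - ℓ) 0 := max_le_max (by linarith) le_rfl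
        linarith
      calc _ ≤ C * (1 + |t|) ^ A * (Real.exp (-δ * |ξ - L|) *
          (Real.exp (ℓ / 2) * Real.exp (-ξ / 2 - 5 / 2 * max (ξ - L) 0 + δ * |ξ - L|))) :=
            mul_le_mul_of_nonneg_left this (by positivity)
        _ = _ := by ring)
    (int_exp_abs hδ L).1
    (by
      simp only [e2]
      exact (int_vv_SS hδ hδ1 a2 L (-t)).const_mul _)
  simp only [e2] at cs
  rw [(int_exp_abs hδ L).2, integral_const_mul, ← e1] at cs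
  rw [hr, norm_mul, norm_mul, hE, one_mul, mul_pow, Complex.norm_real,
    Real.norm_of_nonneg (by positivity)]
  refine (mul_le_mul_of_nonneg_left cs (sq_nonneg _)).trans (le_of_eq ?_)
  have e3 : Real.exp (ℓ / 2) ^ 2 = nm Q / X := by
    rw [sq, ← Real.exp_add, add_halves, hexp]
  have e4 : ((1 + |t|) ^ A) ^ 2 = (1 + |t|) ^ (2 * A) := by
    rw [sq, ← Real.rpow_add (by positivity), two_mul]
  rw [hK, mul_pow, mul_pow, e3, e4, div_pow, Real.sq_sqrt hN.le]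
  field_simp
  rfl

end Crest.Agent.R12.HK
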